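import Vale.Agent.P098.ReduceN.Expr
import Vale.Agent.P098.ReduceN.Frame

/-!
P098, reduction in every dimension: the scalar quadratic form of one eigendirection, and linearity
in the squared components of the tangential gradient.
-/

open Matrix

namespace Vale.Agent.P098.ReduceN

open Vale.Agent.P098.Reduce (Mat hsum)

noncomputable section

variable {n : ℕ} {σ : Fields}

/-- Power sums. -/
def psum (L : Fin n → ℝ) (j : ℕ) : ℝ := ∑ i, L i ^ j

/-- A diagonal of third derivatives against powers of the eigenvalues. -/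
def usum (L u : Fin n → ℝ) (m : ℕ) : ℝ := ∑ i, L i ^ m * u i

/-- A diagonal of third derivatives against the differential of a power. -/
def hdot (L u : Fin n → ℝ) (j : ℕ) (c : Fin n) : ℝ := ∑ i, hsum j (L i) (L c) * u i

/-- The differential of a coefficient in one eigendirection. -/
def dCoef (X : Jet1) (L u : Fin n → ℝ) (c : Fin n) (q : ℝ) : ℝ :=
  2 * X.2.1 * usum L u 1 + 3 * X.2.2.2.2.1 * usum L u 2 + 4 * X.2.2.2.2.2 * usum L u 3 +
    (X.2.2.1 + 2 * L c * X.2.2.2.1) * q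

/-- The weight of the squared third derivatives in all the divergences. -/
def kern (D : Data σ Jet1) (a b c : ℝ) : ℝ :=
  (∑ m, (D.A m).1 * hsum (σ.a m + 1) b c) +
    ∑ k, (D.X k).1 *
      (a ^ (σ.p k + 1) * hsum (σ.q k + 1) b c - a ^ (σ.q k + 1) * hsum (σ.p k + 1) b c)

/-- The weights in the tangential frame. -/
def kernAt (D : Data σ Jet1) (L : Fin n → ℝ) (a i l : Fin n) : ℝ := kern D (L a) (L i) (L l)

/-- The quadratic form of one eigendirection. -/
def block (D : Data σ Jet1) (L : Fin n → ℝ) (c : Fin n) (u : Fin n → ℝ) (y q : ℝ) : ℝ :=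
  y * dCoef D.Φ L u c q - y ^ 2 * D.Φ.1 +
    (∑ m, dCoef (D.A m) L u c q * usum L u (σ.a m + 1)) +
    (∑ i, diagWeight (kernAt D L) c i * u i ^ 2) +
    (∑ k, (dCoef (D.X k) L u c q *
        (L c ^ (σ.p k + 1) * usum L u (σ.q k + 1) - L c ^ (σ.q k + 1) * usum L u (σ.p k + 1)) +
      (D.X k).1 * (hdot L u (σ.p k + 1) c * usum L u (σ.q k + 1) -
        hdot L u (σ.q k + 1) c * usum L u (σ.p k + 1)))) +
    q * ∑ j, (L c ^ σ.j j * dCoef (D.B j) L u c q + (D.B j).1 * hdot L u (σ.j j) c)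

/-- The part without third derivatives, the radial direction optimised. -/
def constPart (D : Data σ Jet1) (L : Fin n → ℝ) (s : ℝ) : ℝ :=
  ((n : ℝ) - 1) ^ 2 / 4 * D.Φ.1 + (∑ m, (n : ℝ) * (D.A m).1 * psum L (σ.a m + 2)) +
    (∑ j, (D.B j).1 * (if σ.j j = 0 then -((n : ℝ) * s)
      else psum L (σ.j j + 1) - s * psum L (σ.j j))) +
    ∑ k, (D.X k).1 *
      (psum L (σ.p k + 1) * psum L (σ.q k + 2) - psum L (σ.q k + 1) * psum L (σ.p k + 2))

lemma block_smul (D : Data σ Jet1) (L : Fin n → ℝ) (c : Fin n) (u : Fin n → ℝ) (y q r : ℝ) :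
    block D L c (r • u) (r * y) (r * q) = r ^ 2 * block D L c u y q := by
  have hu : ∀ m, usum L (r • u) m = r * usum L u m := fun m => by
    simp only [usum, Pi.smul_apply, smul_eq_mul, Finset.mul_sum]
    exact Finset.sum_congr rfl fun i _ => by ring
  have hh : ∀ j, hdot L (r • u) j c = r * hdot L u j c := fun j => by
    simp only [hdot, Pi.smul_apply, smul_eq_mul, Finset.mul_sum]
    exact Finset.sum_congr rfl fun i _ => by ring
  have hd : ∀ X, dCoef X L (r • u) c (r * q) = r * dCoef X L u c q := fun X => by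
    simp only [dCoef, hu]; ring
  simp only [block, hd, hu, hh, Pi.smul_apply, smul_eq_mul, mul_add, mul_sub, Finset.mul_sum]
  refine congrArg₂ (· + ·) (congrArg₂ (· + ·) (congrArg₂ (· + ·) (congrArg₂ (· + ·) (by ring)
    (Finset.sum_congr rfl fun m _ => by ring)) (Finset.sum_congr rfl fun i _ => by ring))
    (Finset.sum_congr rfl fun k _ => by ring)) (Finset.sum_congr rfl fun j _ => by ring)

/-- The parallelogram identity of the quadratic form. -/
lemma block_par (D : Data σ Jet1) (L : Fin n → ℝ) (c : Fin n) (v : Fin n → ℝ) (z q r : ℝ) :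
    block D L c (r • v) (r * z) q + block D L c ((-r) • v) (-r * z) q =
      2 * r ^ 2 * block D L c v z 0 + 2 * block D L c 0 0 q := by
  have hu : ∀ (r : ℝ) m, usum L (r • v) m = r * usum L v m := fun r m => by
    simp only [usum, Pi.smul_apply, smul_eq_mul, Finset.mul_sum]
    exact Finset.sum_congr rfl fun i _ => by ring
  have hh : ∀ (r : ℝ) j, hdot L (r • v) j c = r * hdot L v j c := fun r j => by
    simp only [hdot, Pi.smul_apply, smul_eq_mul, Finset.mul_sum]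
    exact Finset.sum_congr rfl fun i _ => by ring
  have hu0 : ∀ m, usum L (0 : Fin n → ℝ) m = 0 := fun m => by simp [usum]
  have hh0 : ∀ j, hdot L (0 : Fin n → ℝ) j c = 0 := fun j => by simp [hdot]
  have g : ∀ {ι : Type} [Fintype ι] (f₁ f₂ f₃ f₄ : ι → ℝ),
      (∀ i, f₁ i + f₂ i = 2 * r ^ 2 * f₃ i + 2 * f₄ i) →
      ∑ i, f₁ i + ∑ i, f₂ i = 2 * r ^ 2 * ∑ i, f₃ i + 2 * ∑ i, f₄ i := by
    intro ι _ f₁ f₂ f₃ f₄ h
    rw [Finset.mul_sum, Finset.mul_sum, ← Finset.sum_add_distrib, ← Finset.sum_add_distrib]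
    exact Finset.sum_congr rfl fun i _ => h i
  simp only [block, dCoef, hu, hh, hu0, hh0, Pi.smul_apply, Pi.zero_apply, smul_eq_mul,
    Finset.mul_sum (a := q), Finset.mul_sum (a := (0 : ℝ))]
  have A := g
    (fun m => ((2 * (D.A m).2.1 * (r * usum L v 1) + 3 * (D.A m).2.2.2.2.1 * (r * usum L v 2) + 4 * (D.A m).2.2.2.2.2 * (r * usum L v 3)) + ((D.A m).2.2.1 + 2 * L c * (D.A m).2.2.2.1) * q) *
      (r * usum L v (σ.a m + 1)))
    (fun m => ((2 * (D.A m).2.1 * (-r * usum L v 1) + 3 * (D.A m).2.2.2.2.1 * (-r * usum L v 2) + 4 * (D.A m).2.2.2.2.2 * (-r * usum L v 3)) + ((D.A m).2.2.1 + 2 * L c * (D.A m).2.2.2.1) * q) *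
      (-r * usum L v (σ.a m + 1)))
    (fun m => ((2 * (D.A m).2.1 * usum L v 1 + 3 * (D.A m).2.2.2.2.1 * usum L v 2 + 4 * (D.A m).2.2.2.2.2 * usum L v 3) + ((D.A m).2.2.1 + 2 * L c * (D.A m).2.2.2.1) * 0) *
      usum L v (σ.a m + 1))
    (fun m => ((2 * (D.A m).2.1 * 0 + 3 * (D.A m).2.2.2.2.1 * 0 + 4 * (D.A m).2.2.2.2.2 * 0) + ((D.A m).2.2.1 + 2 * L c * (D.A m).2.2.2.1) * q) * 0)
    fun m => by ring
  have W := g (fun i => diagWeight (kernAt D L) c i * (r * v i) ^ 2)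
    (fun i => diagWeight (kernAt D L) c i * (-r * v i) ^ 2)
    (fun i => diagWeight (kernAt D L) c i * v i ^ 2)
    (fun i => diagWeight (kernAt D L) c i * (0 : ℝ) ^ 2) fun i => by ring
  have X := g
    (fun k => ((2 * (D.X k).2.1 * (r * usum L v 1) + 3 * (D.X k).2.2.2.2.1 * (r * usum L v 2) + 4 * (D.X k).2.2.2.2.2 * (r * usum L v 3)) + ((D.X k).2.2.1 + 2 * L c * (D.X k).2.2.2.1) * q) *
        (L c ^ (σ.p k + 1) * (r * usum L v (σ.q k + 1)) - L c ^ (σ.q k + 1) * (r * usum L v (σ.p k + 1))) +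
      (D.X k).1 * (r * hdot L v (σ.p k + 1) c * (r * usum L v (σ.q k + 1)) -
        r * hdot L v (σ.q k + 1) c * (r * usum L v (σ.p k + 1))))
    (fun k => ((2 * (D.X k).2.1 * (-r * usum L v 1) + 3 * (D.X k).2.2.2.2.1 * (-r * usum L v 2) + 4 * (D.X k).2.2.2.2.2 * (-r * usum L v 3)) + ((D.X k).2.2.1 + 2 * L c * (D.X k).2.2.2.1) * q) *
        (L c ^ (σ.p k + 1) * (-r * usum L v (σ.q k + 1)) - L c ^ (σ.q k + 1) * (-r * usum L v (σ.p k + 1))) +
      (D.X k).1 * (-r * hdot L v (σ.p k + 1) c * (-r * usum L v (σ.q k + 1)) -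
        -r * hdot L v (σ.q k + 1) c * (-r * usum L v (σ.p k + 1))))
    (fun k => ((2 * (D.X k).2.1 * usum L v 1 + 3 * (D.X k).2.2.2.2.1 * usum L v 2 + 4 * (D.X k).2.2.2.2.2 * usum L v 3) + ((D.X k).2.2.1 + 2 * L c * (D.X k).2.2.2.1) * 0) *
        (L c ^ (σ.p k + 1) * usum L v (σ.q k + 1) - L c ^ (σ.q k + 1) * usum L v (σ.p k + 1)) +
      (D.X k).1 * (hdot L v (σ.p k + 1) c * usum L v (σ.q k + 1) -
        hdot L v (σ.q k + 1) c * usum L v (σ.p k + 1)))
    (fun k => ((2 * (D.X k).2.1 * 0 + 3 * (D.X k).2.2.2.2.1 * 0 + 4 * (D.X k).2.2.2.2.2 * 0) + ((D.X k).2.2.1 + 2 * L c * (D.X k).2.2.2.1) * q) *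
        (L c ^ (σ.p k + 1) * 0 - L c ^ (σ.q k + 1) * 0) + (D.X k).1 * (0 * 0 - 0 * 0))
    fun k => by ring
  have B := g
    (fun j => q * (L c ^ σ.j j * ((2 * (D.B j).2.1 * (r * usum L v 1) + 3 * (D.B j).2.2.2.2.1 * (r * usum L v 2) + 4 * (D.B j).2.2.2.2.2 * (r * usum L v 3)) +
      ((D.B j).2.2.1 + 2 * L c * (D.B j).2.2.2.1) * q) + (D.B j).1 * (r * hdot L v (σ.j j) c)))
    (fun j => q * (L c ^ σ.j j * ((2 * (D.B j).2.1 * (-r * usum L v 1) + 3 * (D.B j).2.2.2.2.1 * (-r * usum L v 2) + 4 * (D.B j).2.2.2.2.2 * (-r * usum L v 3)) +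
      ((D.B j).2.2.1 + 2 * L c * (D.B j).2.2.2.1) * q) + (D.B j).1 * (-r * hdot L v (σ.j j) c)))
    (fun j => (0 : ℝ) * (L c ^ σ.j j * ((2 * (D.B j).2.1 * usum L v 1 + 3 * (D.B j).2.2.2.2.1 * usum L v 2 + 4 * (D.B j).2.2.2.2.2 * usum L v 3) +
      ((D.B j).2.2.1 + 2 * L c * (D.B j).2.2.2.1) * 0) + (D.B j).1 * hdot L v (σ.j j) c))
    (fun j => q * (L c ^ σ.j j * ((2 * (D.B j).2.1 * 0 + 3 * (D.B j).2.2.2.2.1 * 0 + 4 * (D.B j).2.2.2.2.2 * 0) +
      ((D.B j).2.2.1 + 2 * L c * (D.B j).2.2.2.1) * q) + (D.B j).1 * 0))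
    fun j => by ring
  linear_combination A + W + X + B

/-- Linearity in the squared components: it suffices to put the gradient into one block. -/
theorem sum_block_le {D : Data σ Jet1} {L : Fin n → ℝ} {K q₀ : ℝ}
    (h : ∀ c u y, ∑ i, u i = 0 → block D L c u y q₀ ≤ K) (hn : 0 < n)
    (q y : Fin n → ℝ) (u : Fin n → Fin n → ℝ) (hu : ∀ c, ∑ i, u c i = 0)
    (hq : ∑ c, q c ^ 2 = q₀ ^ 2) :
    ∑ c, block D L c (u c) (y c) (q c) ≤ K := by
  have hz : ∀ c v z, ∑ i, v i = 0 → block D L c v z 0 ≤ 0 := by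
    intro c v z hv
    by_contra hpos
    rw [not_le] at hpos
    -- along `(r v, r z, q₀)` the form is a quadratic polynomial in `r`, bounded by `K`
    set a := block D L c v z 0 with ha
    set e := block D L c 0 0 q₀ with he
    have hb : ∀ r : ℝ, r ^ 2 * (2 * a) + 2 * e ≤ 2 * K := by
      intro r
      have hu' : ∀ r : ℝ, ∑ i, (r • v) i = 0 := fun r => by simp [← Finset.mul_sum, hv]
      have h1 := h c (r • v) (r * z) (hu' r)
      have h2 := h c ((-r) • v) (-r * z) (hu' (-r))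
      have key := block_par D L c v z q₀ r
      rw [← ha, ← he] at key
      linarith
    have h3 := hb (1 + |K - e| / a)
    have h5 : 0 ≤ |K - e| / a := by positivity
    have h4 : (|K - e| / a) * a = |K - e| := div_mul_cancel₀ _ hpos.ne'
    nlinarith [le_abs_self (K - e), mul_nonneg (mul_nonneg h5 h5) hpos.le]
  by_cases hq0 : q₀ = 0
  · have hqz : ∀ c, q c = 0 := fun c => by
      have h1 : q c ^ 2 ≤ 0 := by
        rw [hq0, zero_pow two_ne_zero] at hq
        exact hq ▸ Finset.single_le_sum (f := fun c => q c ^ 2) (fun c _ => sq_nonneg _)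
          (Finset.mem_univ c)
      exact pow_eq_zero_iff two_ne_zero |>.1 (le_antisymm h1 (sq_nonneg _))
    have hK : 0 ≤ K := by
      have := h ⟨0, hn⟩ 0 0 (by simp)
      rwa [hq0, show block D L ⟨0, hn⟩ 0 0 0 = 0 by
        simp [block, dCoef, usum, hdot]] at this
    refine le_trans (Finset.sum_nonpos fun c _ => ?_) hK
    rw [hqz c]
    exact hz c _ _ (hu c)
  · have hc : ∀ c, block D L c (u c) (y c) (q c) ≤ q c ^ 2 / q₀ ^ 2 * K := by
      intro c
      by_cases hqc : q c = 0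
      · rw [hqc]
        simpa using hz c _ _ (hu c)
      · set r := q₀ / q c
        have hr : r ≠ 0 := div_ne_zero hq0 hqc
        have h1 := h c (r • u c) (r * y c) (by simp [← Finset.mul_sum, hu c])
        rw [show q₀ = r * q c from (div_mul_cancel₀ _ hqc).symm, block_smul] at h1
        rw [show q c ^ 2 / q₀ ^ 2 * K = K / r ^ 2 by
          simp only [r, div_pow]; field_simp]
        rw [le_div_iff₀ (by positivity), mul_comm]
        exact h1
    refine (Finset.sum_le_sum fun c _ => hc c).trans_eq ?_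
    rw [← Finset.sum_mul, ← Finset.sum_div, hq, div_self (pow_ne_zero 2 hq0), one_mul]

end

end Vale.Agent.P098.ReduceN
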