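import Vale.Agent.P098.ReduceN.Expr
import Vale.Agent.P098.Reduce.Calc

/-!
P098, reduction in every dimension: derivatives of the test function and of the fields.
-/

open Filter Matrix
open scoped Topology ContDiff

namespace Vale.Agent.P098.ReduceN

open Vale.Agent.P098.Reduce

noncomputable section

variable {d n : ℕ} {σ : Fields}

/-- The arguments of the coefficients along the jet. -/
def argOf (v : Euc d → ℝ) (x : Euc d) : Arg :=
  ((coefArg v x).1, (coefArg v x).2.1, (coefArg v x).2.2, ‖x‖ ^ 3 * (hessM v x ^ 3).trace,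
    ‖x‖ ^ 4 * (hessM v x ^ 4).trace)

/-- A coefficient with its partial derivatives. -/
def jet1Of (X : Arg → ℝ) (z : Arg) : Jet1 :=
  (X z, fderiv ℝ X z (1, 0, 0, 0, 0), fderiv ℝ X z (0, 1, 0, 0, 0), fderiv ℝ X z (0, 0, 1, 0, 0),
    fderiv ℝ X z (0, 0, 0, 1, 0), fderiv ℝ X z (0, 0, 0, 0, 1))

/-- The test function. -/
def certF (n : ℕ) (Φ : Arg → ℝ) (v : Euc d → ℝ) (x : Euc d) : ℝ :=
  ‖x‖ ^ (-((n : ℤ) - 1)) * Φ (argOf v x)

/-- The field. -/
def certV (n : ℕ) (σ : Fields) (D : Data σ (Arg → ℝ)) (v : Euc d → ℝ) (k : Fin d)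
    (x : Euc d) : ℝ :=
  (∑ m, ‖x‖ ^ (-expA n (σ.a m)) * D.A m (argOf v x) *
      Reduce.contract (hessM v x) (thirdM v x) (σ.a m + 1) k) +
    (∑ i, ‖x‖ ^ (-expB n (σ.j i)) * D.B i (argOf v x) *
      (hessM v x ^ σ.j i *ᵥ gradVec v x) k) +
    ∑ i, ‖x‖ ^ (-expX n (σ.p i) (σ.q i)) * D.X i (argOf v x) *
      anti (hessM v x) (thirdM v x) (σ.p i + 1) (σ.q i + 1) k

/-- The coefficients with their derivatives at a point. -/
def coefsOf (D : Data σ (Arg → ℝ)) (z : Arg) : Data σ Jet1 :=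
  D.map fun X => jet1Of X z

variable {x : Euc d} {v : Euc d → ℝ}

lemma pd_norm_zpow (hx : x ≠ 0) (e : ℤ) (k : Fin d) :
    DifferentiableAt ℝ (fun y : Euc d => ‖y‖ ^ (-e)) x ∧
      pd k (fun y : Euc d => ‖y‖ ^ (-e)) x = -((e : ℝ) * x k * ‖x‖ ^ (-e - 2)) := by
  obtain ⟨hd, hp⟩ := hasFDerivAt_invNorm hx
  have hn : ‖x‖ ≠ 0 := norm_ne_zero_iff.2 hx
  have h := (hasDerivAt_zpow e (‖x‖⁻¹) (Or.inl (inv_ne_zero hn))).comp_hasFDerivAt
    (f := fun y : Euc d => ‖y‖⁻¹) x hd.hasFDerivAt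
  simp only [Function.comp_def] at h
  have ef : (fun y : Euc d => ‖y‖ ^ (-e)) = fun y => ‖y‖⁻¹ ^ e := by
    funext y; rw [_root_.inv_zpow, ← _root_.zpow_neg]
  rw [ef]
  refine ⟨h.differentiableAt, ?_⟩
  rw [pd, h.fderiv]
  have hp' := hp k
  rw [pd] at hp'
  simp only [_root_.smul_apply, smul_eq_mul, hp']
  rw [_root_.inv_zpow, ← _root_.zpow_neg]
  have e1 : ‖x‖ ^ (-(e - 1)) / ‖x‖ ^ 3 = ‖x‖ ^ (-e - 2) := by
    rw [div_eq_mul_inv, ← zpow_natCast ‖x‖ 3, ← _root_.zpow_neg, ← zpow_add₀ hn]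
    congr 1
    push_cast
    ring
  rw [← e1]
  ring

lemma trace_dpow (H T : Mat d) : ∀ j i : ℕ,
    (dpow H T (j + 1) * H ^ i).trace = ((j : ℝ) + 1) * (T * H ^ (j + i)).trace
  | 0, i => by simp [dpow]
  | j + 1, i => by
    show ((dpow H T (j + 1) * H + H ^ (j + 1) * T) * H ^ i).trace = _
    rw [Matrix.add_mul, Matrix.trace_add, Matrix.mul_assoc, ← pow_succ', trace_dpow H T j (i + 1),
      Matrix.mul_assoc (H ^ (j + 1)), Matrix.trace_mul_comm (H ^ (j + 1)), Matrix.mul_assoc T, ← pow_add]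
    push_cast
    rw [show j + (i + 1) = j + 1 + i by ring, show i + (j + 1) = j + 1 + i by ring]
    ring

lemma pd_traceArg (h4 : ContDiffAt ℝ 4 v x) (hx : x ≠ 0) (p : ℕ) :
    DifferentiableAt ℝ (fun y => ‖y‖ ^ (p + 2) * (hessM v y ^ (p + 2)).trace) x ∧
      ∀ k, pd k (fun y => ‖y‖ ^ (p + 2) * (hessM v y ^ (p + 2)).trace) x =
        traceDir (posVec x) (hessM v x) (thirdM v x) ‖x‖ p k := by
  have ef : (fun y : Euc d => ‖y‖ ^ (p + 2)) = fun y => ‖y‖ ^ (-(-((p + 2 : ℕ) : ℤ))) := by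
    funext y; rw [neg_neg, zpow_natCast]
  have hN : DifferentiableAt ℝ (fun y : Euc d => ‖y‖ ^ (p + 2)) x :=
    DifferentiableAt.fun_pow ((contDiffAt_norm (n := 1) ℝ hx).differentiableAt one_ne_zero) _
  have hT : DifferentiableAt ℝ (fun y => (hessM v y ^ (p + 2)).trace) x :=
    DifferentiableAt.fun_sum fun i _ => hess_pow_diff h4 (p + 2) i i
  refine ⟨hN.fun_mul hT, fun k => ?_⟩
  have e1 : pd k (fun y : Euc d => ‖y‖ ^ (p + 2)) x = ((p : ℝ) + 2) * x k * ‖x‖ ^ p := by
    rw [ef, (pd_norm_zpow hx _ k).2,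
      show (- -((p + 2 : ℕ) : ℤ) - 2) = (p : ℤ) by push_cast; ring, zpow_natCast]
    push_cast
    ring
  have e2 : pd k (fun y => (hessM v y ^ (p + 2)).trace) x =
      ((p : ℝ) + 2) * Reduce.contract (hessM v x) (thirdM v x) (p + 1) k := by
    refine (pd_sum Finset.univ k fun i _ => hess_pow_diff h4 (p + 2) i i).trans ?_
    simp only [pd_hess_pow h4]
    have h := trace_dpow (hessM v x) (thirdM v x k) (p + 1) 0
    simp only [pow_zero, Matrix.mul_one, add_zero] at h
    refine Eq.trans ?_ (h.trans (by rw [Reduce.contract]; push_cast; ring))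
    rfl
  rw [pd_mul k hN hT, e1, e2]
  simp only [traceDir, Pi.add_apply, Pi.smul_apply, smul_eq_mul, posVec]
  ring

lemma argOf_pd (h4 : ContDiffAt ℝ 4 v x) (hx : x ≠ 0) :
    DifferentiableAt ℝ (argOf v) x ∧
      ∀ {X : Arg → ℝ}, DifferentiableAt ℝ X (argOf v x) → ∀ k,
        pd k (fun y => X (argOf v y)) x = pullN (posVec x) (gradVec v x) (hessM v x) (thirdM v x)
          ‖x‖ (v x / ‖x‖) (jet1Of X (argOf v x)) k := by
  obtain ⟨hA, hAp⟩ := coefArg_pd h4 hx
  obtain ⟨h3, h3p⟩ := pd_traceArg h4 hx 1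
  obtain ⟨h4', h4p⟩ := pd_traceArg h4 hx 2
  have hG : DifferentiableAt ℝ (argOf v) x :=
    hA.fst.prodMk (hA.snd.fst.prodMk (hA.snd.snd.prodMk (h3.prodMk h4')))
  refine ⟨hG, fun {X} hX k => ?_⟩
  have h := (hX.hasFDerivAt.comp x hG.hasFDerivAt).fderiv
  rw [pd, show (fun y => X (argOf v y)) = X ∘ argOf v from rfl, h, ContinuousLinearMap.comp_apply]
  have hd : fderiv ℝ (argOf v) x (EuclideanSpace.single k 1) =
      ((fderiv ℝ (coefArg v) x (EuclideanSpace.single k 1)).1,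
        (fderiv ℝ (coefArg v) x (EuclideanSpace.single k 1)).2.1,
        (fderiv ℝ (coefArg v) x (EuclideanSpace.single k 1)).2.2,
        traceDir (posVec x) (hessM v x) (thirdM v x) ‖x‖ 1 k,
        traceDir (posVec x) (hessM v x) (thirdM v x) ‖x‖ 2 k) := by
    rw [← h3p k, ← h4p k]
    have e : fderiv ℝ (argOf v) x =
        ((ContinuousLinearMap.fst ℝ ℝ (ℝ × ℝ)).comp (fderiv ℝ (coefArg v) x)).prod
          (((ContinuousLinearMap.fst ℝ ℝ ℝ).comp ((ContinuousLinearMap.snd ℝ ℝ (ℝ × ℝ)).comp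
            (fderiv ℝ (coefArg v) x))).prod
          (((ContinuousLinearMap.snd ℝ ℝ ℝ).comp ((ContinuousLinearMap.snd ℝ ℝ (ℝ × ℝ)).comp
            (fderiv ℝ (coefArg v) x))).prod
          ((fderiv ℝ (fun y => ‖y‖ ^ 3 * (hessM v y ^ 3).trace) x).prod
            (fderiv ℝ (fun y => ‖y‖ ^ 4 * (hessM v y ^ 4).trace) x)))) :=
      (hA.hasFDerivAt.fst.prodMk (hA.hasFDerivAt.snd.fst.prodMk (hA.hasFDerivAt.snd.snd.prodMk
        (h3.hasFDerivAt.prodMk h4'.hasFDerivAt)))).fderiv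
    rw [e]
    rfl
  rw [hd, hAp k]
  have hsplit : ∀ a b c d e : ℝ, ((a, b, c, d, e) : Arg) =
      a • ((1, 0, 0, 0, 0) : Arg) + b • ((0, 1, 0, 0, 0) : Arg) + c • ((0, 0, 1, 0, 0) : Arg) +
        d • ((0, 0, 0, 1, 0) : Arg) + e • ((0, 0, 0, 0, 1) : Arg) := fun a b c d e => by simp
  rw [hsplit, map_add, map_add, map_add, map_add, map_smul, map_smul, map_smul, map_smul, map_smul]
  simp only [smul_eq_mul, pullN, pull, jet1Of, Pi.add_apply, Pi.sub_apply, Pi.smul_apply, posVec,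
    gradVec]
  ring

lemma pd_coefZ (h4 : ContDiffAt ℝ 4 v x) (hx : x ≠ 0) {X : Arg → ℝ}
    (hX : DifferentiableAt ℝ X (argOf v x)) (e : ℤ) (k : Fin d) :
    DifferentiableAt ℝ (fun y => ‖y‖ ^ (-e) * X (argOf v y)) x ∧
      pd k (fun y => ‖y‖ ^ (-e) * X (argOf v y)) x =
        weightedZ (posVec x) (gradVec v x) (hessM v x) (thirdM v x) ‖x‖ (v x / ‖x‖) e
          (jet1Of X (argOf v x)) k := by
  obtain ⟨hA, hAp⟩ := argOf_pd h4 hx
  obtain ⟨hI, hIp⟩ := pd_norm_zpow hx e k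
  have hc : DifferentiableAt ℝ (fun y => X (argOf v y)) x := hX.comp x hA
  refine ⟨hI.fun_mul hc, ?_⟩
  rw [pd_mul k hI hc, hIp, hAp hX]
  simp only [weightedZ, jet1Of, Pi.add_apply, Pi.smul_apply, smul_eq_mul, posVec]
  ring

lemma pd4_swap (h4 : ContDiffAt ℝ 4 v x) (k l b a : Fin d) :
    pd k (pd l (pd b (pd a v))) x = pd b (pd a (pd k (pd l v))) x := by
  have h4' : ∀ᶠ y in 𝓝 x, ContDiffAt ℝ 4 v y := h4.eventually (by norm_num)
  have s1 : ∀ i j p q : Fin d,
      pd i (pd j (pd p (pd q v))) x = pd j (pd i (pd p (pd q v))) x := fun i j p q =>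
    pd_comm (contDiffAt_pd (contDiffAt_pd h4 (m := 3) (by norm_num) q) (m := 2) (by norm_num) p) i j
  have s2 : ∀ i j p q : Fin d,
      pd i (pd j (pd p (pd q v))) x = pd i (pd p (pd j (pd q v))) x := fun i j p q =>
    pd_congr (h4'.mono fun y hy =>
      pd_comm (contDiffAt_pd hy (m := 2) (by norm_num) q) j p) i
  have s3 : ∀ i j p q : Fin d,
      pd i (pd j (pd p (pd q v))) x = pd i (pd j (pd q (pd p v))) x := fun i j p q =>
    pd_congr (h4'.eventually_nhds.mono fun y hy =>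
      pd_congr (hy.mono fun z hz => pd_comm (hz.of_le (by norm_num)) p q) j) i
  rw [s2 k l b a, s1 k b l a, s3 b k l a, s2 b k a l]

/-- The pointwise expression of a certificate. -/
theorem cert_eq_jetExpr (h4 : ContDiffAt ℝ 4 v x) (hx : x ≠ 0)
    (hharm : (fun y => ∑ i, pd i (pd i v) y) =ᶠ[𝓝 x] fun _ => 0)
    {D : Data σ (Arg → ℝ)} (hΦ : Differentiable ℝ D.Φ)
    (hA : ∀ m, Differentiable ℝ (D.A m)) (hB : ∀ j, Differentiable ℝ (D.B j))
    (hX : ∀ i, Differentiable ℝ (D.X i)) (y : Fin d → ℝ) :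
    (∑ i, y i * pd i (certF n D.Φ v) x) - (∑ i, y i ^ 2) * certF n D.Φ v x +
        ∑ k, pd k (certV n σ D v k) x =
      jetExpr n σ (posVec x) (gradVec v x) (hessM v x) (thirdM v x) ‖x‖ (v x / ‖x‖)
        (coefsOf D (argOf v x)) y := by
  set H := hessM v x with hH
  set T := thirdM v x with hT
  set g := gradVec v x with hg
  set W := weightedZ (posVec x) g H T ‖x‖ (v x / ‖x‖) with hW
  set F4 : Fin d → Fin d → Mat d := fun k l =>
    Matrix.of fun a b => pd k (third v a b l) x with hF4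
  have dF : ∀ i, pd i (certF n D.Φ v) x = W ((n : ℤ) - 1) (jet1Of D.Φ (argOf v x)) i :=
    fun i => (pd_coefZ h4 hx (hΦ _) _ i).2
  have dC : ∀ (m : ℕ) k, DifferentiableAt ℝ
      (fun z => Reduce.contract (hessM v z) (thirdM v z) m k) x := fun m k => by
    simp only [Reduce.contract, Matrix.trace, Matrix.diag]
    exact DifferentiableAt.fun_sum fun i _ => differentiableAt_mat_mul (M := fun z => thirdM v z k)
      (fun a b => diff_third h4 a b k) (hess_pow_diff h4 m) i i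
  have dG : ∀ (j : ℕ) k, DifferentiableAt ℝ (fun z => (hessM v z ^ j *ᵥ gradVec v z) k) x :=
    fun j k => by
      simp only [Matrix.mulVec, dotProduct]
      exact DifferentiableAt.fun_sum fun i _ => (hess_pow_diff h4 j k i).fun_mul (diff_grad h4 i)
  have pC : ∀ (m : ℕ) k l, pd k (fun z => Reduce.contract (hessM v z) (thirdM v z) m l) x =
      (F4 k l * H ^ m).trace + (T l * dpow H (T k) m).trace := fun m k l => by
    rw [← Matrix.trace_add]
    refine (pd_sum Finset.univ k fun i _ =>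
      differentiableAt_mat_mul (fun a b => diff_third h4 a b l) (hess_pow_diff h4 m) i i).trans ?_
    refine Finset.sum_congr rfl fun i _ => (pd_mat_mul k i i (fun a b => diff_third h4 a b l)
      (hess_pow_diff h4 m)).trans ?_
    simp only [pd_hess_pow h4, ← hH, ← hT]
    rfl
  have h4th : ∀ a b, ∑ k, pd k (third v a b k) x = 0 := fun a b =>
    ((laplace_pd (contDiffAt_pd h4 (m := 3) (by norm_num) a)
      (laplace_pd (h4.of_le (by norm_num)) hharm a) b).eq_of_nhds)
  have divC : ∀ m : ℕ, ∑ k, pd k (fun z => Reduce.contract (hessM v z) (thirdM v z) m k) x =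
      contractDiv H T m := by
    intro m
    simp only [pC, Finset.sum_add_distrib, contractDiv]
    rw [← Matrix.trace_sum, ← Finset.sum_mul,
      show (∑ k, F4 k k) = (0 : Mat d) from by
        ext a b; simp [hF4, Matrix.sum_apply, h4th a b]]
    simp
  have divG : ∀ j : ℕ, ∑ k, pd k (fun z => (hessM v z ^ j *ᵥ gradVec v z) k) x =
      applyDiv g H T j := by
    intro j
    have e : ∀ k, pd k (fun z => (hessM v z ^ j *ᵥ gradVec v z) k) x =
        (dpow H (T k) j *ᵥ g) k + (H ^ j * H) k k := by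
      intro k
      simp only [Matrix.mulVec, dotProduct, Matrix.mul_apply, ← Finset.sum_add_distrib]
      refine (pd_sum Finset.univ k fun i _ => (hess_pow_diff h4 j k i).fun_mul (diff_grad h4 i)).trans ?_
      refine Finset.sum_congr rfl fun i _ => ?_
      rw [pd_mul k (hess_pow_diff h4 j k i) (diff_grad h4 i), pd_hess_pow h4]
      rfl
    simp only [e, Finset.sum_add_distrib, applyDiv, pow_succ]
    rfl
  have dH : ∀ (p q : ℕ) k, DifferentiableAt ℝ
      (fun z => (hessM v z ^ p *ᵥ Reduce.contract (hessM v z) (thirdM v z) q) k) x :=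
    fun p q k => by
      simp only [Matrix.mulVec, dotProduct]
      exact DifferentiableAt.fun_sum fun i _ => (hess_pow_diff h4 p k i).fun_mul (dC q i)
  set S : ℕ → ℕ → ℝ := fun p q => ∑ k, ∑ l, (H ^ p) k l * (F4 k l * H ^ q).trace with hS
  have half : ∀ p q : ℕ,
      ∑ k, pd k (fun z => (hessM v z ^ p *ᵥ Reduce.contract (hessM v z) (thirdM v z) q) k) x =
        crossDiv H T p q + S p q := by
    intro p q
    have e : ∀ k, pd k (fun z => (hessM v z ^ p *ᵥ Reduce.contract (hessM v z) (thirdM v z) q) k) x =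
        (dpow H (T k) p *ᵥ Reduce.contract H T q) k +
          ((∑ l, (H ^ p) k l * (T l * dpow H (T k) q).trace) +
            ∑ l, (H ^ p) k l * (F4 k l * H ^ q).trace) := by
      intro k
      simp only [Matrix.mulVec, dotProduct, ← Finset.sum_add_distrib]
      refine (pd_sum Finset.univ k fun i _ => (hess_pow_diff h4 p k i).fun_mul (dC q i)).trans ?_
      refine Finset.sum_congr rfl fun i _ => ?_
      rw [pd_mul k (hess_pow_diff h4 p k i) (dC q i), pd_hess_pow h4, pC, ← hH, ← hT]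
      ring
    have eg : (H ^ p * (gram H T q).transpose).trace =
        ∑ k, ∑ l, (H ^ p) k l * (T l * dpow H (T k) q).trace := by
      simp [Matrix.trace, Matrix.diag, Matrix.mul_apply, gram]
    simp only [e, Finset.sum_add_distrib, crossDiv, applyDiv, add_sub_cancel_right, eg, hS]
    ring
  have hSc : ∀ p q, S p q = S q p := by
    have expand : ∀ p q, S p q = ∑ z : (Fin d × Fin d) × Fin d × Fin d,
        (H ^ p) z.1.1 z.1.2 * (H ^ q) z.2.1 z.2.2 *
          pd z.1.1 (pd z.1.2 (pd z.2.1 (pd z.2.2 v))) x := fun p q => by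
      simp only [hS, hF4, Matrix.trace, Matrix.diag, Matrix.mul_apply, Matrix.of_apply,
        Finset.mul_sum, Fintype.sum_prod_type]
      refine Finset.sum_congr rfl fun k _ => Finset.sum_congr rfl fun l _ => ?_
      rw [Finset.sum_comm]
      refine Finset.sum_congr rfl fun b _ => Finset.sum_congr rfl fun a _ => ?_
      show (H ^ p) k l * (pd k (pd l (pd b (pd a v))) x * (H ^ q) b a) = _
      ring
    intro p q
    rw [expand, expand]
    refine Fintype.sum_equiv (Equiv.prodComm _ _) _ _ fun z => ?_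
    simp only [Equiv.prodComm_apply, Prod.fst_swap, Prod.snd_swap]
    rw [pd4_swap h4]
    ring
  have divX : ∀ p q : ℕ, ∑ k, pd k (fun z => anti (hessM v z) (thirdM v z) p q k) x =
      antiDiv H T p q := by
    intro p q
    simp only [anti, Pi.sub_apply, pd_sub _ (dH p q _) (dH q p _), Finset.sum_sub_distrib, half,
      hSc q p, antiDiv]
    ring
  have dA : ∀ (p q : ℕ) k, DifferentiableAt ℝ
      (fun z => anti (hessM v z) (thirdM v z) p q k) x := fun p q k => by
    simp only [anti, Pi.sub_apply]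
    exact (dH p q k).fun_sub (dH q p k)
  have d1 := fun k (m : Fin σ.M) =>
    (pd_coefZ h4 hx (hA m _) (expA n (σ.a m)) k).1.fun_mul (dC (σ.a m + 1) k)
  have d2 := fun k (j : Fin σ.J) =>
    (pd_coefZ h4 hx (hB j _) (expB n (σ.j j)) k).1.fun_mul (dG (σ.j j) k)
  have d3 := fun k (i : Fin σ.K) =>
    (pd_coefZ h4 hx (hX i _) (expX n (σ.p i) (σ.q i)) k).1.fun_mul (dA (σ.p i + 1) (σ.q i + 1) k)
  have dV : ∀ k, pd k (certV n σ D v k) x =
      (∑ m, (W (expA n (σ.a m)) (jet1Of (D.A m) (argOf v x)) k *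
          Reduce.contract H T (σ.a m + 1) k +
        ‖x‖ ^ (-expA n (σ.a m)) * D.A m (argOf v x) *
          pd k (fun z => Reduce.contract (hessM v z) (thirdM v z) (σ.a m + 1) k) x)) +
      (∑ j, (W (expB n (σ.j j)) (jet1Of (D.B j) (argOf v x)) k * (H ^ σ.j j *ᵥ g) k +
        ‖x‖ ^ (-expB n (σ.j j)) * D.B j (argOf v x) *
          pd k (fun z => (hessM v z ^ σ.j j *ᵥ gradVec v z) k) x)) +
      ∑ i, (W (expX n (σ.p i) (σ.q i)) (jet1Of (D.X i) (argOf v x)) k *
          anti H T (σ.p i + 1) (σ.q i + 1) k +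
        ‖x‖ ^ (-expX n (σ.p i) (σ.q i)) * D.X i (argOf v x) *
          pd k (fun z => anti (hessM v z) (thirdM v z) (σ.p i + 1) (σ.q i + 1) k) x) := by
    intro k
    have s1 := DifferentiableAt.fun_sum (u := Finset.univ) fun m _ => d1 k m
    have s2 := DifferentiableAt.fun_sum (u := Finset.univ) fun j _ => d2 k j
    have s3 := DifferentiableAt.fun_sum (u := Finset.univ) fun i _ => d3 k i
    refine (pd_add k (s1.fun_add s2) s3).trans ?_
    rw [pd_add k s1 s2, pd_sum Finset.univ k fun m _ => d1 k m,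
      pd_sum Finset.univ k fun j _ => d2 k j, pd_sum Finset.univ k fun i _ => d3 k i]
    refine congrArg₂ (· + ·) (congrArg₂ (· + ·) (Finset.sum_congr rfl fun m _ => ?_)
      (Finset.sum_congr rfl fun m _ => ?_)) (Finset.sum_congr rfl fun m _ => ?_)
    · rw [pd_mul k (pd_coefZ h4 hx (hA m _) (expA n (σ.a m)) k).1 (dC _ k),
        (pd_coefZ h4 hx (hA m _) (expA n (σ.a m)) k).2]
    · rw [pd_mul k (pd_coefZ h4 hx (hB m _) (expB n (σ.j m)) k).1 (dG _ k),
        (pd_coefZ h4 hx (hB m _) (expB n (σ.j m)) k).2]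
    · rw [pd_mul k (pd_coefZ h4 hx (hX m _) (expX n (σ.p m) (σ.q m)) k).1 (dA _ _ k),
        (pd_coefZ h4 hx (hX m _) (expX n (σ.p m) (σ.q m)) k).2]
  simp only [dF, dV, Finset.sum_add_distrib]
  rw [Finset.sum_comm (t := (Finset.univ : Finset (Fin σ.M))),
    Finset.sum_comm (t := (Finset.univ : Finset (Fin σ.J))),
    Finset.sum_comm (t := (Finset.univ : Finset (Fin σ.K))),
    Finset.sum_comm (t := (Finset.univ : Finset (Fin σ.M))),
    Finset.sum_comm (t := (Finset.univ : Finset (Fin σ.J))),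
    Finset.sum_comm (t := (Finset.univ : Finset (Fin σ.K)))]
  simp only [← Finset.mul_sum, divC, divG, divX, jetExpr, dotProduct, Finset.sum_add_distrib, certF,
    coefsOf, Data.map, jet1Of, pow_two, hW, mul_comm (‖x‖ ^ (_ : ℤ))]
  ring

end

end Vale.Agent.P098.ReduceN
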