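import Vale.Agent.P098.Reduce.Expr
import Vale.Agent.P098.Reduce.Block

/-!
P098, reduction in every dimension: a weight against the squares of a fully symmetric tensor
splits into diagonal blocks and distinct triples.
-/

open Matrix

namespace Vale.Agent.P098.ReduceN

open Vale.Agent.P098.Reduce (hsum)

noncomputable section

lemma hsum_succ' (a b : ℝ) : ∀ j : ℕ, hsum (j + 1) a b = a * hsum j a b + b ^ j
  | 0 => by simp [hsum]
  | j + 1 => by
    have h := hsum_succ' a b j
    have e : hsum (j + 1 + 1) a b = hsum (j + 1) a b * b + a ^ (j + 1) := rfl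
    have e' : hsum (j + 1) a b = hsum j a b * b + a ^ j := rfl
    rw [e, pow_succ, pow_succ]
    nth_rw 1 [h]
    nth_rw 1 [e']
    ring

lemma hsum_comm (a b : ℝ) : ∀ j : ℕ, hsum j a b = hsum j b a
  | 0 => rfl
  | j + 1 => by
    rw [hsum_succ' a b j, hsum_comm a b j]
    show _ = hsum j b a * a + b ^ j
    ring

lemma hsum_self (a : ℝ) : ∀ j : ℕ, hsum (j + 1) a a = ((j : ℝ) + 1) * a ^ j
  | 0 => by simp [hsum]
  | j + 1 => by
    show hsum (j + 1) a a * a + a ^ (j + 1) = _
    rw [hsum_self a j, pow_succ]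
    push_cast
    ring

variable {N : ℕ}

/-- The weight of `τ c i i` in the block of `c`. -/
def diagWeight (G : Fin N → Fin N → Fin N → ℝ) (c i : Fin N) : ℝ :=
  if i = c then G c c c else G c i i + G i c i + G i i c

/-- The weight of a triple, summed over its orders. -/
def tripleWeight (G : Fin N → Fin N → Fin N → ℝ) (a i l : Fin N) : ℝ :=
  G a i l + G a l i + G i a l + G i l a + G l a i + G l i a

variable {τ : Fin N → Fin N → Fin N → ℝ} (s₁ : ∀ a i l, τ a i l = τ a l i)
  (s₂ : ∀ a i l, τ a i l = τ i a l)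

include s₁ s₂

/-- With nonpositive weights of distinct triples, only the diagonal blocks remain. -/
theorem cube_le (G : Fin N → Fin N → Fin N → ℝ)
    (hG : ∀ a i l, a ≠ i → a ≠ l → i ≠ l → tripleWeight G a i l ≤ 0) :
    ∑ a, ∑ i, ∑ l, G a i l * τ a i l ^ 2 ≤ ∑ c, ∑ i, diagWeight G c i * τ c i i ^ 2 := by
  set F : Fin N → Fin N → Fin N → ℝ := fun a i l =>
    if a ≠ i ∧ a ≠ l ∧ i ≠ l then G a i l * τ a i l ^ 2 else 0 with hF
  have hsplit : ∀ a i l, G a i l * τ a i l ^ 2 =
      (if l = i then G a i l * τ a i l ^ 2 else 0) +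
      (if i = a then (if l = i then 0 else G a i l * τ a i l ^ 2) else 0) +
      (if l = a then (if i = a then 0 else G a i l * τ a i l ^ 2) else 0) + F a i l := by
    intro a i l
    simp only [hF]
    by_cases h1 : l = i
    · subst h1
      by_cases h2 : l = a
      · subst h2; simp
      · simp [h2]
    · by_cases h2 : i = a
      · subst h2; simp [h1]
      · by_cases h3 : l = a
        · subst h3; simp [h1, h2]
        · simp [h1, h2, h3, Ne.symm h1, Ne.symm h2, Ne.symm h3]
  have e1 : ∑ a, ∑ i, ∑ l, (if l = i then G a i l * τ a i l ^ 2 else 0) =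
      ∑ c, ∑ i, G c i i * τ c i i ^ 2 := by simp
  have e2 : ∑ a, ∑ i, ∑ l, (if i = a then (if l = i then 0 else G a i l * τ a i l ^ 2) else 0) =
      ∑ c, ∑ i, (if i = c then 0 else G i i c * τ c i i ^ 2) := by
    rw [Finset.sum_comm (s := Finset.univ) (t := Finset.univ) (f := fun c i =>
      if i = c then 0 else G i i c * τ c i i ^ 2)]
    refine Finset.sum_congr rfl fun a _ => ?_
    rw [Finset.sum_eq_single a (fun b _ hb => by simp [hb]) (by simp)]
    refine Finset.sum_congr rfl fun l _ => ?_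
    rw [if_pos rfl, s₁ a a l, s₂ a l a]
    by_cases h : l = a
    · subst h; simp
    · simp [h, Ne.symm h]
  have e3 : ∑ a, ∑ i, ∑ l, (if l = a then (if i = a then 0 else G a i l * τ a i l ^ 2) else 0) =
      ∑ c, ∑ i, (if i = c then 0 else G i c i * τ c i i ^ 2) := by
    rw [Finset.sum_comm (s := Finset.univ) (t := Finset.univ) (f := fun c i =>
      if i = c then 0 else G i c i * τ c i i ^ 2)]
    refine Finset.sum_congr rfl fun a _ => Finset.sum_congr rfl fun i _ => ?_
    rw [Finset.sum_ite_eq' Finset.univ a, if_pos (Finset.mem_univ a), s₂ a i a]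
    by_cases h : i = a
    · subst h; simp
    · simp [h, Ne.symm h]
  have hperm : ∑ a, ∑ i, ∑ l, F a i l ≤ 0 := by
    have p1 : ∑ a, ∑ i, ∑ l, F a l i = ∑ a, ∑ i, ∑ l, F a i l :=
      Finset.sum_congr rfl fun a _ => Finset.sum_comm
    have p2 : ∑ a, ∑ i, ∑ l, F i a l = ∑ a, ∑ i, ∑ l, F a i l := Finset.sum_comm
    have p3 : ∑ a, ∑ i, ∑ l, F i l a = ∑ a, ∑ i, ∑ l, F a i l :=
      (Finset.sum_comm).trans (Finset.sum_congr rfl fun a _ => Finset.sum_comm)
    have p4 : ∑ a, ∑ i, ∑ l, F l a i = ∑ a, ∑ i, ∑ l, F a i l :=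
      (Finset.sum_congr rfl fun a _ => Finset.sum_comm).trans Finset.sum_comm
    have p5 : ∑ a, ∑ i, ∑ l, F l i a = ∑ a, ∑ i, ∑ l, F a i l :=
      Eq.trans (Finset.sum_congr rfl fun a _ => Finset.sum_comm) (Finset.sum_comm.trans
        (Finset.sum_congr rfl fun a _ => Finset.sum_comm))
    have hpt : ∀ a i l, F a i l + F a l i + F i a l + F i l a + F l a i + F l i a ≤ 0 := by
      intro a i l
      by_cases h : a ≠ i ∧ a ≠ l ∧ i ≠ l
      · obtain ⟨h1, h2, h3⟩ := h
        have t1 : τ a l i = τ a i l := (s₁ a i l).symm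
        have t2 : τ i a l = τ a i l := (s₂ a i l).symm
        have t3 : τ i l a = τ a i l := (s₁ i l a).trans t2
        have t4 : τ l a i = τ a i l := (s₂ l a i).trans t1
        have t5 : τ l i a = τ a i l := (s₁ l i a).trans t4
        simp only [hF, ne_eq, h1, h2, h3, Ne.symm h1, Ne.symm h2, Ne.symm h3, not_false_eq_true,
          and_self, if_true, t1, t2, t3, t4, t5]
        have := mul_nonpos_of_nonpos_of_nonneg (hG a i l h1 h2 h3) (sq_nonneg (τ a i l))
        rw [tripleWeight] at this
        linarith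
      · have hz : ∀ p q r, (p = q ∨ p = r ∨ q = r) → F p q r = 0 := fun p q r hpqr => by
          simp only [hF]
          rw [if_neg]
          tauto
        have h' : a = i ∨ a = l ∨ i = l := by tauto
        rcases h' with rfl | rfl | rfl <;> simp [hz]
    have hsum : ∑ a, ∑ i, ∑ l, (F a i l + F a l i + F i a l + F i l a + F l a i + F l i a) ≤ 0 :=
      Finset.sum_nonpos fun a _ => Finset.sum_nonpos fun i _ => Finset.sum_nonpos fun l _ => hpt a i l
    simp only [Finset.sum_add_distrib] at hsum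
    linarith
  have htot : ∑ a, ∑ i, ∑ l, G a i l * τ a i l ^ 2 =
      (∑ c, ∑ i, diagWeight G c i * τ c i i ^ 2) + ∑ a, ∑ i, ∑ l, F a i l := by
    conv_lhs => enter [2, a, 2, i, 2, l]; rw [hsplit]
    simp only [Finset.sum_add_distrib]
    rw [e1, e2, e3]
    have e4 : (∑ c, ∑ i, diagWeight G c i * τ c i i ^ 2) =
        (∑ c, ∑ i, G c i i * τ c i i ^ 2) +
        (∑ c, ∑ i, (if i = c then 0 else G i i c * τ c i i ^ 2)) +
        ∑ c, ∑ i, (if i = c then 0 else G i c i * τ c i i ^ 2) := by
      simp only [← Finset.sum_add_distrib]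
      refine Finset.sum_congr rfl fun c _ => Finset.sum_congr rfl fun i _ => ?_
      unfold diagWeight
      by_cases h : i = c
      · subst h; simp
      · simp [h]; ring
    rw [e4]
  linarith

end

end Vale.Agent.P098.ReduceN
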