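import Vale.Agent.P098.ReduceN.Block

/-!
P098, reduction in every dimension: the pointwise expression at a point of norm one in an
eigenframe, bounded by the scalar inequality.
-/

open Matrix

namespace Vale.Agent.P098.ReduceN

open Vale.Agent.P098.Reduce (Mat hsum dpow pull contract contractDiv applyDiv hsum_zero_right
  hsum_zero_left)

noncomputable section

variable {n : ℕ} {σ : Fields}

/-- The scalar inequality for coefficients with values and partial derivatives given. -/
structure PointIneq (D : Data σ Jet1) (L : Fin n → ℝ) (s q₀ β : ℝ) : Prop where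
  nonneg : 0 ≤ D.Φ.1
  triple : ∀ a i l, a ≠ i → a ≠ l → i ≠ l → tripleWeight (kernAt D L) a i l ≤ 0
  block : ∀ c u y, ∑ i, u i = 0 → block D L c u y q₀ + constPart D L s ≤ β

variable {L : Fin n → ℝ} {t : Fin (n + 1) → Mat (n + 1)}

/-- A fully symmetric tracefree tensor with radial slot `-H`. -/
structure Frame (L : Fin n → ℝ) (t : Fin (n + 1) → Mat (n + 1)) : Prop where
  sum_zero : ∑ i, L i = 0
  symm₁ : ∀ a i l, t a i l = t a l i
  symm₂ : ∀ a i l, t a i l = t i a l
  trace : ∀ a, (t a).trace = 0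
  radial : t 0 = -frameHess L

/-- The eigenvalues with the radial one. -/
def eig (L : Fin n → ℝ) : Fin (n + 1) → ℝ := Fin.cons 0 L

lemma frameHess_pow (p : ℕ) : frameHess L ^ p = Matrix.diagonal (fun k => eig L k ^ p) := by
  rw [frameHess, Matrix.diagonal_pow]
  rfl

lemma trace_frameHess_pow (m : ℕ) : (frameHess L ^ (m + 1)).trace = psum L (m + 1) := by
  rw [frameHess_pow, Matrix.trace_diagonal, Fin.sum_univ_succ]
  simp [psum, eig]

lemma dpow_frame (T : Mat (n + 1)) (j : ℕ) (i l : Fin (n + 1)) :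
    dpow (frameHess L) T j i l = hsum j (eig L i) (eig L l) * T i l := by
  induction j with
  | zero => simp [dpow, hsum]
  | succ j ih =>
    rw [dpow, hsum, Matrix.add_apply, frameHess, Matrix.mul_diagonal, Matrix.diagonal_pow,
      Matrix.diagonal_mul, Pi.pow_apply]
    rw [frameHess] at ih
    rw [ih, eig]
    ring

namespace Frame

variable (hF : Frame L t) {s : ℝ} {q : Fin n → ℝ}

include hF

lemma radial_apply (i l : Fin (n + 1)) : t 0 i l = -frameHess L i l := by rw [hF.radial]; rfl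

lemma mixed (c : Fin n) (i : Fin n) :
    t c.succ 0 0 = 0 ∧ t c.succ 0 i.succ = (if c = i then -L c else 0) ∧
      t c.succ i.succ 0 = (if c = i then -L c else 0) := by
  refine ⟨?_, ?_, ?_⟩
  · rw [hF.symm₂, hF.radial_apply, frameHess, Matrix.diagonal_apply_ne _ (Fin.succ_ne_zero c), neg_zero]
  · rw [hF.symm₂, hF.radial_apply, frameHess, Matrix.diagonal_apply]
    by_cases h : c = i <;> simp [h]
  · rw [hF.symm₁, hF.symm₂, hF.radial_apply, frameHess, Matrix.diagonal_apply]
    by_cases h : c = i <;> simp [h]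

lemma two_zero (i : Fin (n + 1)) : t i 0 0 = 0 := by
  cases i using Fin.cases with
  | zero => simp [hF.radial_apply, frameHess]
  | succ c =>
    rw [hF.symm₂, hF.radial_apply, frameHess, Matrix.diagonal_apply_ne _ (Fin.succ_ne_zero c), neg_zero]

lemma diag_sum_zero (c : Fin n) : ∑ i : Fin n, t c.succ i.succ i.succ = 0 := by
  have h := hF.trace c.succ
  rw [Matrix.trace, Fin.sum_univ_succ] at h
  simpa [hF.two_zero c.succ] using h

lemma contract_eq (m : ℕ) :
    Reduce.contract (frameHess L) t (m + 1) = Fin.cons (-psum L (m + 2))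
      (fun c : Fin n => usum L (fun i => t c.succ i.succ i.succ) (m + 1)) := by
  funext k
  have h : ∀ M : Mat (n + 1), (M * frameHess L ^ (m + 1)).trace =
      ∑ i : Fin n, L i ^ (m + 1) * M i.succ i.succ := fun M => by
    rw [frameHess_pow, Matrix.trace, Fin.sum_univ_succ]
    simp [Matrix.mul_diagonal, eig, mul_comm]
  cases k using Fin.cases with
  | zero =>
    simp only [Reduce.contract, h, hF.radial_apply, Fin.cons_zero, psum]
    rw [← Finset.sum_neg_distrib]
    exact Finset.sum_congr rfl fun i _ => by simp [frameHess]; ring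
  | succ c => simp [Reduce.contract, h, usum]

lemma pull_eq (X : Jet1) :
    pullN (Fin.cons 1 0) (Fin.cons s q) (frameHess L) t 1 s X = Fin.cons 0
      (fun c : Fin n => dCoef X L (fun i => t c.succ i.succ i.succ) c (q c)) := by
  have h1 := hF.contract_eq 0
  unfold Reduce.contract at h1
  simp only [zero_add, pow_one] at h1
  have h2 : (frameHess L * frameHess L).trace = psum L 2 := by
    rw [← pow_two]; exact trace_frameHess_pow 1
  funext k
  have h1k := congrFun h1 k
  beta_reduce at h1k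
  simp only [pullN, traceDir, pull, hF.contract_eq, trace_frameHess_pow, Pi.add_apply, Pi.sub_apply,
    Pi.smul_apply, smul_eq_mul, one_pow, div_one]
  rw [h1k, h2, frameHess, Matrix.mulVec_diagonal]
  cases k using Fin.cases with
  | zero => simp
  | succ c => simp [dCoef]; ring

lemma weighted_eq (e : ℤ) (X : Jet1) :
    weightedZ (Fin.cons 1 0) (Fin.cons s q) (frameHess L) t 1 s e X = Fin.cons (-((e : ℝ) * X.1))
      (fun c : Fin n => dCoef X L (fun i => t c.succ i.succ i.succ) c (q c)) := by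
  funext k
  simp only [weightedZ, hF.pull_eq, Pi.add_apply, Pi.smul_apply, smul_eq_mul, _root_.one_zpow]
  cases k using Fin.cases with
  | zero => simp
  | succ c => simp

lemma anti_eq (p q : ℕ) :
    anti (frameHess L) t (p + 1) (q + 1) = Fin.cons 0 (fun c : Fin n =>
      L c ^ (p + 1) * usum L (fun i => t c.succ i.succ i.succ) (q + 1) -
        L c ^ (q + 1) * usum L (fun i => t c.succ i.succ i.succ) (p + 1)) := by
  funext k
  simp only [anti, hF.contract_eq, frameHess_pow, Pi.sub_apply, Matrix.mulVec_diagonal]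
  cases k using Fin.cases <;> simp [eig]

lemma divApply_eq (w₀ : ℝ) (w : Fin n → ℝ) (j : ℕ) :
    applyDiv (Fin.cons w₀ w) (frameHess L) t (j + 1) - (frameHess L ^ (j + 1 + 1)).trace =
      -(w₀ * psum L (j + 1)) +
        ∑ c, w c * hdot L (fun i => t c.succ i.succ i.succ) (j + 1) c := by
  have e0 : ∀ l : Fin (n + 1), t 0 0 l = 0 := fun l => by
    rw [hF.symm₁, hF.symm₂ 0 l 0, hF.two_zero]
  have e1 : ∀ a : Fin n, ∀ l : Fin n, t a.succ a.succ l.succ = t l.succ a.succ a.succ :=
    fun a l => by rw [hF.symm₁ a.succ a.succ l.succ, hF.symm₂ a.succ l.succ a.succ]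
  have e2 : ∀ a : Fin n, t a.succ a.succ 0 = -L a := fun a => by
    simpa using (hF.mixed a a).2.2
  rw [applyDiv, add_sub_cancel_right]
  simp only [Matrix.mulVec, dotProduct, dpow_frame, Fin.sum_univ_succ, e0, e2, eig,
    Fin.cons_zero, Fin.cons_succ, hsum_zero_right, mul_zero, zero_mul, Finset.sum_const_zero,
    add_zero, zero_add, Finset.sum_add_distrib]
  have e3 : ∑ a : Fin n, L a ^ j * -L a * w₀ = -(w₀ * psum L (j + 1)) := by
    rw [psum, Finset.mul_sum, ← Finset.sum_neg_distrib]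
    exact Finset.sum_congr rfl fun a _ => by ring
  have e4 : ∑ a : Fin n, ∑ l : Fin n, hsum (j + 1) (L a) (L l) * t a.succ a.succ l.succ * w l =
      ∑ c, w c * hdot L (fun i => t c.succ i.succ i.succ) (j + 1) c := by
    rw [Finset.sum_comm]
    refine Finset.sum_congr rfl fun c _ => ?_
    rw [hdot, Finset.mul_sum]
    exact Finset.sum_congr rfl fun i _ => by rw [e1 i c]; ring
  linarith

lemma applyDiv_eq (j : ℕ) :
    applyDiv (Fin.cons s q) (frameHess L) t j =
      (if j = 0 then 0 else psum L (j + 1) - s * psum L j) +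
        ∑ c, q c * hdot L (fun i => t c.succ i.succ i.succ) j c := by
  rcases j with _ | j
  · simp [applyDiv, dpow, hdot, hsum, frameHess, Matrix.trace_diagonal, Fin.sum_univ_succ, hF.sum_zero]
  · have h := hF.divApply_eq s q j
    rw [trace_frameHess_pow (j + 1)] at h
    rw [if_neg (Nat.succ_ne_zero j)]
    linarith

lemma quad_split (G : Fin (n + 1) → Fin (n + 1) → Fin (n + 1) → ℝ) :
    ∑ a, ∑ i, ∑ l, G a i l * t a i l ^ 2 =
      (∑ i, L i ^ 2 * (G 0 i.succ i.succ + G i.succ 0 i.succ + G i.succ i.succ 0)) +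
        ∑ a : Fin n, ∑ i : Fin n, ∑ l : Fin n,
          G a.succ i.succ l.succ * t a.succ i.succ l.succ ^ 2 := by
  have e00 : t 0 0 0 = 0 := hF.two_zero 0
  have e0 : ∀ i l : Fin n, t 0 i.succ l.succ = (if i = l then -L i else 0) := fun i l => by
    rw [hF.radial_apply, frameHess, Matrix.diagonal_apply]
    by_cases h : i = l <;> simp [h]
  have e01 : ∀ i : Fin n, t 0 0 i.succ = 0 ∧ t 0 i.succ 0 = 0 := fun i =>
    ⟨by rw [hF.symm₁, hF.symm₂ 0 i.succ 0, hF.two_zero],
      by rw [hF.symm₂ 0 i.succ 0, hF.two_zero]⟩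
  simp only [Fin.sum_univ_succ, e00, e0, (e01 _).1, (e01 _).2, hF.two_zero, (hF.mixed _ _).2.1,
    (hF.mixed _ _).2.2, ite_pow, neg_sq, zero_pow two_ne_zero, mul_ite, mul_zero,
    Finset.sum_ite_eq, Finset.mem_univ, if_true, Finset.sum_const_zero, add_zero, zero_add,
    Finset.sum_add_distrib]
  have e : ∑ i, L i ^ 2 * (G 0 i.succ i.succ + G i.succ 0 i.succ + G i.succ i.succ 0) =
      ∑ i, G i.succ i.succ 0 * L i ^ 2 + ∑ i, G i.succ 0 i.succ * L i ^ 2 +
        ∑ i, G 0 i.succ i.succ * L i ^ 2 := by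
    rw [← Finset.sum_add_distrib, ← Finset.sum_add_distrib]
    exact Finset.sum_congr rfl fun i _ => by ring
  rw [e]
  ring

lemma gram_diag (m : ℕ) (k : Fin (n + 1)) :
    gram (frameHess L) t m k k = ∑ i, ∑ l, hsum m (eig L i) (eig L l) * t k i l ^ 2 := by
  simp only [gram, Matrix.of_apply, Matrix.trace, Matrix.diag, Matrix.mul_apply, dpow_frame]
  refine Finset.sum_congr rfl fun i _ => Finset.sum_congr rfl fun l _ => ?_
  rw [hF.symm₁ k l i, hsum_comm (eig L l)]
  ring

lemma contractDiv_eq (a : ℕ) :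
    contractDiv (frameHess L) t (a + 1) = ((a : ℝ) + 3) * psum L (a + 2) +
      ∑ k : Fin n, ∑ i : Fin n, ∑ l : Fin n,
        hsum (a + 1) (L i) (L l) * t k.succ i.succ l.succ ^ 2 := by
  have h : contractDiv (frameHess L) t (a + 1) =
      ∑ k, ∑ i, ∑ l, hsum (a + 1) (eig L i) (eig L l) * t k i l ^ 2 := by
    rw [← Finset.sum_congr rfl fun k _ => hF.gram_diag (a + 1) k]
    rfl
  rw [h, hF.quad_split fun _ i l => hsum (a + 1) (eig L i) (eig L l)]
  simp only [eig, Fin.cons_succ, Fin.cons_zero, hsum_zero_right, hsum_zero_left, hsum_self, psum,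
    Finset.mul_sum]
  refine congrArg (· + _) (Finset.sum_congr rfl fun i _ => ?_)
  ring

lemma crossDiv_eq (p q : ℕ) :
    crossDiv (frameHess L) t (p + 1) (q + 1) = psum L (p + 1) * psum L (q + 2) +
      2 * psum L (p + q + 3) +
      (∑ c, usum L (fun i => t c.succ i.succ i.succ) (q + 1) *
        hdot L (fun i => t c.succ i.succ i.succ) (p + 1) c) +
      ∑ k : Fin n, ∑ i : Fin n, ∑ l : Fin n,
        L k ^ (p + 1) * hsum (q + 1) (L i) (L l) * t k.succ i.succ l.succ ^ 2 := by
  have h2 : (frameHess L ^ (p + 1) * (gram (frameHess L) t (q + 1)).transpose).trace =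
      ∑ k, ∑ i, ∑ l, eig L k ^ (p + 1) * hsum (q + 1) (eig L i) (eig L l) * t k i l ^ 2 := by
    rw [frameHess_pow, Matrix.trace]
    simp only [Matrix.diag, Matrix.diagonal_mul, Matrix.transpose_apply, hF.gram_diag,
      Finset.mul_sum, mul_assoc]
  rw [crossDiv, hF.contract_eq, hF.divApply_eq, h2,
    hF.quad_split fun k i l => eig L k ^ (p + 1) * hsum (q + 1) (eig L i) (eig L l)]
  simp only [eig, Fin.cons_succ, Fin.cons_zero, hsum_zero_right, hsum_zero_left,
    zero_pow (Nat.succ_ne_zero _), zero_mul, zero_add]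
  have e : ∑ i, L i ^ 2 * (L i ^ (p + 1) * L i ^ q + L i ^ (p + 1) * L i ^ q) =
      2 * psum L (p + q + 3) := by
    rw [psum, Finset.mul_sum]
    exact Finset.sum_congr rfl fun i _ => by ring
  rw [e]
  ring

/-- The expression in an eigenframe is bounded by the sum of the blocks. -/
theorem jetExpr_le_sum {D : Data σ Jet1} (hnn : 0 ≤ D.Φ.1)
    (htriple : ∀ a i l, a ≠ i → a ≠ l → i ≠ l → tripleWeight (kernAt D L) a i l ≤ 0)
    (y : Fin (n + 1) → ℝ) :
    jetExpr n σ (Fin.cons 1 0) (Fin.cons s q) (frameHess L) t 1 s D y ≤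
      (∑ c, block D L c (fun i => t c.succ i.succ i.succ) (y c.succ) (q c)) + constPart D L s := by
  set y₀ := y 0 with hy₀
  set y' : Fin n → ℝ := fun c => y c.succ with hy'
  set u : Fin n → Fin n → ℝ := fun c i => t c.succ i.succ i.succ with hu
  have hcube := cube_le (τ := fun a i l => t a.succ i.succ l.succ)
    (fun a i l => hF.symm₁ _ _ _) (fun a i l => hF.symm₂ _ _ _) (kernAt D L) htriple
  have hrad : -(((n : ℝ) - 1) * y₀ * D.Φ.1) - y₀ ^ 2 * D.Φ.1 ≤ ((n : ℝ) - 1) ^ 2 / 4 * D.Φ.1 := by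
    nlinarith [mul_nonneg hnn (sq_nonneg (y₀ + ((n : ℝ) - 1) / 2))]
  -- split the expression
  have eΦ : y ⬝ᵥ weightedZ (Fin.cons 1 0) (Fin.cons s q) (frameHess L) t 1 s ((n : ℤ) - 1) D.Φ -
      (y ⬝ᵥ y) * (D.Φ.1 * (1 : ℝ) ^ (-((n : ℤ) - 1))) =
      -(((n : ℝ) - 1) * y₀ * D.Φ.1) - y₀ ^ 2 * D.Φ.1 +
        ∑ c, (y' c * dCoef D.Φ L (u c) c (q c) - y' c ^ 2 * D.Φ.1) := by
    simp only [hF.weighted_eq, _root_.one_zpow, dotProduct, Fin.sum_univ_succ, Fin.cons_zero,
      Fin.cons_succ, Finset.sum_sub_distrib, ← Finset.sum_mul, hy₀, hy', hu]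
    push_cast
    simp only [pow_two]
    ring
  have eA : ∀ m, weightedZ (Fin.cons 1 0) (Fin.cons s q) (frameHess L) t 1 s (expA n (σ.a m)) (D.A m)
        ⬝ᵥ Reduce.contract (frameHess L) t (σ.a m + 1) +
      (D.A m).1 * (1 : ℝ) ^ (-expA n (σ.a m)) * contractDiv (frameHess L) t (σ.a m + 1) =
      (n : ℝ) * (D.A m).1 * psum L (σ.a m + 2) +
        (∑ c, dCoef (D.A m) L (u c) c (q c) * usum L (u c) (σ.a m + 1)) +
        ∑ k : Fin n, ∑ i : Fin n, ∑ l : Fin n,
          (D.A m).1 * hsum (σ.a m + 1) (L i) (L l) * t k.succ i.succ l.succ ^ 2 := fun m => by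
    simp only [hF.weighted_eq, hF.contract_eq, hF.contractDiv_eq, _root_.one_zpow, dotProduct,
      Fin.sum_univ_succ, Fin.cons_zero, Fin.cons_succ, expA, hu, mul_add, Finset.mul_sum, mul_assoc]
    push_cast
    ring
  have eB : ∀ j, weightedZ (Fin.cons 1 0) (Fin.cons s q) (frameHess L) t 1 s (expB n (σ.j j)) (D.B j)
        ⬝ᵥ (frameHess L ^ σ.j j *ᵥ Fin.cons s q) +
      (D.B j).1 * (1 : ℝ) ^ (-expB n (σ.j j)) * applyDiv (Fin.cons s q) (frameHess L) t (σ.j j) =
      (D.B j).1 * (if σ.j j = 0 then -((n : ℝ) * s)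
          else psum L (σ.j j + 1) - s * psum L (σ.j j)) +
        ∑ c, q c * (L c ^ σ.j j * dCoef (D.B j) L (u c) c (q c) +
          (D.B j).1 * hdot L (u c) (σ.j j) c) := fun j => by
    simp only [hF.weighted_eq, hF.applyDiv_eq, _root_.one_zpow, dotProduct, frameHess_pow,
      Matrix.mulVec_diagonal, Fin.sum_univ_succ, Fin.cons_zero, Fin.cons_succ, eig, expB, hu]
    have e : ∑ c, q c * (L c ^ σ.j j * dCoef (D.B j) L (fun i => t c.succ i.succ i.succ) c (q c) +
        (D.B j).1 * hdot L (fun i => t c.succ i.succ i.succ) (σ.j j) c) =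
        (∑ c, dCoef (D.B j) L (fun i => t c.succ i.succ i.succ) c (q c) * (L c ^ σ.j j * q c)) +
        (D.B j).1 * ∑ c, q c * hdot L (fun i => t c.succ i.succ i.succ) (σ.j j) c := by
      rw [Finset.mul_sum, ← Finset.sum_add_distrib]
      exact Finset.sum_congr rfl fun c _ => by ring
    rw [e]
    rcases eq_or_ne (σ.j j) 0 with h0 | h0
    · simp [h0]; ring
    · rw [if_neg h0, if_neg h0, zero_pow h0]; ring
  have eX : ∀ k, weightedZ (Fin.cons 1 0) (Fin.cons s q) (frameHess L) t 1 s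
        (expX n (σ.p k) (σ.q k)) (D.X k) ⬝ᵥ anti (frameHess L) t (σ.p k + 1) (σ.q k + 1) +
      (D.X k).1 * (1 : ℝ) ^ (-expX n (σ.p k) (σ.q k)) *
        antiDiv (frameHess L) t (σ.p k + 1) (σ.q k + 1) =
      (D.X k).1 *
          (psum L (σ.p k + 1) * psum L (σ.q k + 2) - psum L (σ.q k + 1) * psum L (σ.p k + 2)) +
        (∑ c, (dCoef (D.X k) L (u c) c (q c) *
            (L c ^ (σ.p k + 1) * usum L (u c) (σ.q k + 1) -
              L c ^ (σ.q k + 1) * usum L (u c) (σ.p k + 1)) +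
          (D.X k).1 * (hdot L (u c) (σ.p k + 1) c * usum L (u c) (σ.q k + 1) -
            hdot L (u c) (σ.q k + 1) c * usum L (u c) (σ.p k + 1)))) +
        ∑ a : Fin n, ∑ i : Fin n, ∑ l : Fin n,
          (D.X k).1 * (L a ^ (σ.p k + 1) * hsum (σ.q k + 1) (L i) (L l) -
            L a ^ (σ.q k + 1) * hsum (σ.p k + 1) (L i) (L l)) * t a.succ i.succ l.succ ^ 2 := fun k => by
    have e : σ.q k + σ.p k + 3 = σ.p k + σ.q k + 3 := by ring
    simp only [hF.weighted_eq, hF.anti_eq, antiDiv, hF.crossDiv_eq, e, _root_.one_zpow, dotProduct,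
      Fin.sum_univ_succ, Fin.cons_zero, Fin.cons_succ, hu, mul_sub, sub_mul, Finset.sum_sub_distrib,
      Finset.sum_add_distrib, mul_add, Finset.mul_sum, mul_assoc]
    simp only [mul_comm (usum L _ _) (hdot L _ _ _)]
    ring
  have ekern : ∑ a : Fin n, ∑ i : Fin n, ∑ l : Fin n, kernAt D L a i l * t a.succ i.succ l.succ ^ 2 =
      (∑ m, ∑ a : Fin n, ∑ i : Fin n, ∑ l : Fin n,
        (D.A m).1 * hsum (σ.a m + 1) (L i) (L l) * t a.succ i.succ l.succ ^ 2) +
      ∑ k, ∑ a : Fin n, ∑ i : Fin n, ∑ l : Fin n,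
        (D.X k).1 * (L a ^ (σ.p k + 1) * hsum (σ.q k + 1) (L i) (L l) -
          L a ^ (σ.q k + 1) * hsum (σ.p k + 1) (L i) (L l)) * t a.succ i.succ l.succ ^ 2 := by
    simp only [kernAt, kern, add_mul, Finset.sum_mul, Finset.sum_add_distrib]
    refine congrArg₂ (· + ·) ?_ ?_
    · exact (Finset.sum_congr rfl fun a _ => (Finset.sum_congr rfl fun i _ => Finset.sum_comm).trans
        Finset.sum_comm).trans Finset.sum_comm
    · exact (Finset.sum_congr rfl fun a _ => (Finset.sum_congr rfl fun i _ => Finset.sum_comm).trans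
        Finset.sum_comm).trans Finset.sum_comm
  have swapA : ∀ (f : Fin σ.M → Fin n → ℝ), ∑ m, ∑ c, f m c = ∑ c, ∑ m, f m c := fun _ => Finset.sum_comm
  have swapB : ∀ (f : Fin σ.J → Fin n → ℝ), ∑ m, ∑ c, f m c = ∑ c, ∑ m, f m c := fun _ => Finset.sum_comm
  have swapX : ∀ (f : Fin σ.K → Fin n → ℝ), ∑ m, ∑ c, f m c = ∑ c, ∑ m, f m c := fun _ => Finset.sum_comm
  have eblock : ∑ c, block D L c (u c) (y' c) (q c) =
      (∑ c, (y' c * dCoef D.Φ L (u c) c (q c) - y' c ^ 2 * D.Φ.1)) +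
      (∑ m, ∑ c, dCoef (D.A m) L (u c) c (q c) * usum L (u c) (σ.a m + 1)) +
      (∑ c, ∑ i, diagWeight (kernAt D L) c i * u c i ^ 2) +
      (∑ k, ∑ c, (dCoef (D.X k) L (u c) c (q c) *
            (L c ^ (σ.p k + 1) * usum L (u c) (σ.q k + 1) -
              L c ^ (σ.q k + 1) * usum L (u c) (σ.p k + 1)) +
          (D.X k).1 * (hdot L (u c) (σ.p k + 1) c * usum L (u c) (σ.q k + 1) -
            hdot L (u c) (σ.q k + 1) c * usum L (u c) (σ.p k + 1)))) +
      ∑ j, ∑ c, q c * (L c ^ σ.j j * dCoef (D.B j) L (u c) c (q c) +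
          (D.B j).1 * hdot L (u c) (σ.j j) c) := by
    rw [swapA, swapX, swapB, ← Finset.sum_add_distrib, ← Finset.sum_add_distrib,
      ← Finset.sum_add_distrib, ← Finset.sum_add_distrib]
    refine Finset.sum_congr rfl fun c _ => ?_
    rw [block, Finset.mul_sum]
  simp only [jetExpr]
  rw [eΦ, Finset.sum_congr rfl fun m _ => eA m, Finset.sum_congr rfl fun j _ => eB j,
    Finset.sum_congr rfl fun k _ => eX k]
  simp only [Finset.sum_add_distrib] at eblock ⊢
  simp only [constPart]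
  have hcube' : ∑ a : Fin n, ∑ i : Fin n, ∑ l : Fin n, kernAt D L a i l * t a.succ i.succ l.succ ^ 2 ≤
      ∑ c, ∑ i, diagWeight (kernAt D L) c i * u c i ^ 2 := hcube
  rw [ekern] at hcube'
  linarith

/-- The expression in an eigenframe is bounded by the scalar inequality. -/
theorem jetExpr_le {D : Data σ Jet1} {q₀ β : ℝ} (hn : 0 < n)
    (hq : ∑ c, q c ^ 2 = q₀ ^ 2) (h : PointIneq D L s q₀ β) (y : Fin (n + 1) → ℝ) :
    jetExpr n σ (Fin.cons 1 0) (Fin.cons s q) (frameHess L) t 1 s D y ≤ β := by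
  have hsum' := sum_block_le (K := β - constPart D L s)
    (fun c v z hv => by linarith [h.block c v z hv]) hn q (fun c => y c.succ)
    (fun c i => t c.succ i.succ i.succ) hF.diag_sum_zero hq
  linarith [hF.jetExpr_le_sum (s := s) (q := q) h.nonneg h.triple y]

end Frame

end

end Vale.Agent.P098.ReduceN
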