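import Vale.Agent.P098.ReduceN.Interior

/-!
P098, reduction in every dimension: the flux inequality on the free boundary from an inequality
in the eigenvalues, with the normal one `ν ≤ 0`.
-/

open Filter Matrix
open scoped Topology ContDiff

namespace Vale.Agent.P098.ReduceN

open Vale.Agent.P098.Reduce (Mat conj conj_pow conj_mulVec dot_rot mul_transpose_self
  trace_conj hessM thirdM posVec coefArg)

noncomputable section

variable {n : ℕ} {σ : Fields}

/-- The trace of a boundary third derivative against a power. -/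
def fluxTrace (L : Fin n → ℝ) (a : Fin n) (k : ℕ) : ℝ :=
  L a * psum L (k + 1) - psum L (k + 2) + L a ^ k * psum L 2

/-- The boundary inequality with slack `γ`. -/
def BoundaryIneq (n : ℕ) (σ : Fields) (D : Data σ (Arg → ℝ)) (γ : ℝ) : Prop :=
  ∀ L : Fin n → ℝ, ∑ i, L i = 0 → ∀ a : Fin n, L a ≤ 0 →
    D.Φ (psum L 2, 0, 1, psum L 3, psum L 4) * L a +
      (∑ m, D.A m (psum L 2, 0, 1, psum L 3, psum L 4) * fluxTrace L a (σ.a m + 1)) +
      (∑ j, D.B j (psum L 2, 0, 1, psum L 3, psum L 4) * L a ^ σ.j j) +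
      ∑ i, D.X i (psum L 2, 0, 1, psum L 3, psum L 4) * (L a ^ (σ.p i + 1) * fluxTrace L a (σ.q i + 1) -
        L a ^ (σ.q i + 1) * fluxTrace L a (σ.p i + 1)) ≤ γ

lemma pow_mulVec_eigen {H : Mat (n + 1)} {g : Fin (n + 1) → ℝ} {σ : ℝ} (h : H *ᵥ g = σ • g) :
    ∀ n : ℕ, H ^ n *ᵥ g = σ ^ n • g
  | 0 => by simp
  | n + 1 => by
    rw [pow_succ, ← Matrix.mulVec_mulVec, h, Matrix.mulVec_smul, pow_mulVec_eigen h n, smul_smul]
    ring_nf

/-- A symmetric matrix with prescribed tangential part, against a power of the Hessian. -/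
lemma trace_mul_pow {M H : Mat (n + 1)} {g : Fin (n + 1) → ℝ} {σ : ℝ} (hH : H.transpose = H)
    (hg : g ⬝ᵥ g = 1) (hHg : H *ᵥ g = σ • g) (ht : H.trace = 0) (hM : M.trace = 0)
    (hK : (1 - vecMulVec g g) * M * (1 - vecMulVec g g) = σ • H - H * H) (n : ℕ) :
    (M * H ^ n).trace =
      σ * (H ^ (n + 1)).trace - (H ^ (n + 2)).trace + σ ^ n * (H * H).trace := by
  have hpow : ∀ n, g ᵥ* H ^ n = σ ^ n • g := fun n => by
    rw [← Matrix.mulVec_transpose, Matrix.transpose_pow, hH, pow_mulVec_eigen hHg]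
  have hsplit : M = (σ • H - H * H) + (vecMulVec g g * M + M * vecMulVec g g -
      vecMulVec g g * M * vecMulVec g g) := by
    rw [← hK]
    noncomm_ring
  have tr3 : ∀ n, ((vecMulVec g g * M) * H ^ n).trace = σ ^ n * (g ⬝ᵥ (M *ᵥ g)) ∧
      ((M * vecMulVec g g) * H ^ n).trace = σ ^ n * (g ⬝ᵥ (M *ᵥ g)) ∧
      ((vecMulVec g g * M * vecMulVec g g) * H ^ n).trace = σ ^ n * (g ⬝ᵥ (M *ᵥ g)) := by
    intro n
    refine ⟨?_, ?_, ?_⟩
    · rw [Matrix.vecMulVec_mul, Matrix.vecMulVec_mul, Matrix.trace_vecMulVec, Matrix.vecMul_vecMul,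
        dotProduct_comm, ← Matrix.dotProduct_mulVec, ← Matrix.mulVec_mulVec, pow_mulVec_eigen hHg,
        Matrix.mulVec_smul, dotProduct_smul, smul_eq_mul]
    · rw [Matrix.mul_vecMulVec, Matrix.vecMulVec_mul, Matrix.trace_vecMulVec, hpow, dotProduct_smul,
        dotProduct_comm, smul_eq_mul]
    · rw [Matrix.vecMulVec_mul, Matrix.vecMulVec_mul_vecMulVec, Matrix.vecMulVec_mul,
        Matrix.smul_vecMul, hpow, Matrix.trace_vecMulVec, dotProduct_smul, dotProduct_smul, hg,
        ← Matrix.dotProduct_mulVec, smul_eq_mul, smul_eq_mul]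
      ring
  have key : ∀ n, (M * H ^ n).trace =
      σ * (H ^ (n + 1)).trace - (H ^ (n + 2)).trace + σ ^ n * (g ⬝ᵥ (M *ᵥ g)) := by
    intro n
    obtain ⟨t1, t2, t3⟩ := tr3 n
    conv_lhs => rw [hsplit]
    have e2 : H * H * H ^ n = H ^ (n + 2) := by rw [← pow_two H, ← pow_add, add_comm 2 n]
    simp only [Matrix.add_mul, Matrix.sub_mul, Matrix.trace_add, Matrix.trace_sub, t1, t2, t3,
      smul_mul_assoc, Matrix.trace_smul, smul_eq_mul, ← pow_succ', e2]
    ring
  have h0 := key 0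
  simp only [pow_zero, Matrix.mul_one, zero_add, pow_one, hM, ht, mul_zero, one_mul] at h0
  rw [key n, show g ⬝ᵥ (M *ᵥ g) = (H * H).trace by rw [← pow_two]; linarith]

variable {u v : Euc (n + 1) → ℝ} {W : Set (Euc (n + 1))} (hu : IsSmoothCone u) (hW : IsOpen W)
  (hsub : closure (posSet u) \ {0} ⊆ W) (hv : ContDiffOn ℝ ∞ v W)
  (hvu : Set.EqOn v u (posSet u))
  (hbd : ∀ x ∈ frontier (posSet u), x ≠ 0 → ‖fderiv ℝ v x‖ = 1)

include hu hW hsub hv hvu in
/-- Euler's identity up to the boundary. -/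
lemma point_dot_grad {x : Euc (n + 1)} (hx : x ∈ closure (posSet u)) (hx0 : x ≠ 0) :
    posVec x ⬝ᵥ gradVec v x = v x := by
  have hc : ContinuousAt (fun y : Euc (n + 1) => fderiv ℝ v y y - v y) x :=
    have h := hv.contDiffAt (hW.mem_nhds (hsub ⟨hx, hx0⟩))
    ((h.continuousAt_fderiv (by simp)).clm_apply continuousAt_id).sub h.continuousAt
  have : (𝓝[posSet u] x).NeBot := mem_closure_iff_nhdsWithin_neBot.1 hx
  have h0 : fderiv ℝ v x x - v x = 0 :=
    tendsto_nhds_unique (hc.tendsto.mono_left (nhdsWithin_le_nhds (s := posSet u)))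
      (tendsto_const_nhds.congr' (eventually_nhdsWithin_of_forall fun y hy => by
        show (0 : ℝ) = fderiv ℝ v y y - v y
        rw [fderiv_self hu hsub hv hvu hy, hvu hy, sub_self]))
  rw [sub_eq_zero, clm_apply_eq_sum (fderiv ℝ v x) x] at h0
  exact h0

include hu hW hsub hv hvu hbd in
/-- The flux on the free boundary, from the boundary inequality. -/
theorem flux_le (hn : 0 < n) {D : Data σ (Arg → ℝ)} {γ : ℝ} (h : BoundaryIneq n σ D γ)
    {x : Euc (n + 1)} (hx : x ∈ frontier (posSet u)) (hx0 : x ≠ 0) :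
    (∑ k, certV n σ D v k x * pd k v x) + certF n D.Φ v x * (∑ k, hessGrad v k x * pd k v x) ≤
      γ / ‖x‖ ^ n := by
  obtain ⟨hs, htr, hHx, hT1, hT2, hTtr, -⟩ := jet_props hu hW hsub hv hvu hx.1 hx0
  set r := ‖x‖ with hr
  have hr0 : 0 < r := norm_pos_iff.2 hx0
  set H := hessM v x with hH
  set g := gradVec v x with hg
  set σ' := ∑ k, hessGrad v k x * pd k v x
  have hgg : g ⬝ᵥ g = 1 := by
    have : gradSq v x = 1 := by rw [← norm_fderiv_sq, hbd x hx hx0]; norm_num
    exact this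
  have hHg : H *ᵥ g = σ' • g := by
    funext i
    have hs' : ∀ a b, H a b = H b a := fun a b => congrFun (congrFun hs b) a
    rw [Pi.smul_apply, smul_eq_mul, hg, gradVec, ← hessGrad_eq hu hW hsub hv hvu hbd hx hx0 i,
      Matrix.mulVec, dotProduct, hessGrad]
    exact Finset.sum_congr rfl fun j _ => by rw [hs' i j]; exact mul_comm _ _
  have hσ' : σ' ≤ 0 := hessGrad_dot_nonpos hu hW hsub hv hvu hbd (by omega) hx hx0
  set M := ∑ l, g l • thirdM v x l with hM
  have hMt : M.trace = 0 := by simp [hM, Matrix.trace_sum, Matrix.trace_smul, hTtr]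
  have hK : (1 - vecMulVec g g) * M * (1 - vecMulVec g g) = σ' • H - H * H := by
    set Pr : Mat (n + 1) := 1 - vecMulVec g g with hPr
    have hPg : Pr *ᵥ g = 0 := by
      rw [hPr, Matrix.sub_mulVec, Matrix.one_mulVec, Matrix.vecMulVec_mulVec, hgg]
      simp
    have hPs : Pr.transpose = Pr := by
      rw [hPr, Matrix.transpose_sub, Matrix.transpose_one, Matrix.transpose_vecMulVec]
    have hgP : g ᵥ* Pr = 0 := by rw [← Matrix.mulVec_transpose, hPs, hPg]
    set K := σ' • H - H * H with hKd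
    have hKg : K *ᵥ g = 0 := by
      rw [hKd, Matrix.sub_mulVec, Matrix.smul_mulVec, ← Matrix.mulVec_mulVec, hHg, Matrix.mulVec_smul,
        hHg, sub_self]
    have hgK : g ᵥ* K = 0 := by
      rw [← Matrix.mulVec_transpose, show K.transpose = K by
        rw [hKd, Matrix.transpose_sub, Matrix.transpose_smul, Matrix.transpose_mul, hs], hKg]
    have hKK : Pr * K * Pr = K := by
      rw [hPr, Matrix.sub_mul, Matrix.one_mul, Matrix.vecMulVec_mul, hgK, Matrix.vecMulVec_zero,
        sub_zero, Matrix.mul_sub, Matrix.mul_one, Matrix.mul_vecMulVec, hKg, Matrix.zero_vecMulVec,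
        sub_zero]
    rw [← hKK]
    ext i j
    have ha : ∀ i, ∑ p, Pr i p * pd p v x = 0 := fun i => congrFun hPg i
    have hb := third_boundary hu hW hsub hv hvu hbd hx hx0 (ha i) (ha j)
    have hs2 : ∀ a b, Pr a b = Pr b a := fun a b => congrFun (congrFun hPs b) a
    have expand : ∀ N : Mat (n + 1), (Pr * N * Pr) i j = ∑ p, ∑ q, Pr i p * Pr j q * N p q := fun N => by
      simp only [Matrix.mul_apply, Finset.sum_mul]
      rw [Finset.sum_comm]
      exact Finset.sum_congr rfl fun p _ => Finset.sum_congr rfl fun q _ => by rw [hs2 q j]; ring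
    rw [expand, expand]
    refine Eq.trans ?_ (hb.trans ?_)
    · refine Finset.sum_congr rfl fun p _ => Finset.sum_congr rfl fun q _ => ?_
      simp only [hM, Matrix.sum_apply, Matrix.smul_apply, smul_eq_mul]
      refine congrArg _ (Finset.sum_congr rfl fun l _ => congrArg (g l * ·) ?_)
      show third v p q l x = third v l p q x
      have h3 : ContDiffAt ℝ 3 v x :=
        (hv.contDiffAt (hW.mem_nhds (hsub ⟨hx.1, hx0⟩))).of_le (WithTop.coe_le_coe.2 le_top)
      rw [(third_symm h3 p q l).1, (third_symm h3 p l q).2]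
    · rw [show (∑ k, hessGrad v k x * pd k v x) = σ' from rfl, Finset.mul_sum, ← Finset.sum_sub_distrib]
      refine Finset.sum_congr rfl fun p _ => ?_
      rw [Finset.mul_sum, ← Finset.sum_sub_distrib]
      refine Finset.sum_congr rfl fun q _ => ?_
      simp only [hKd, Matrix.sub_apply, Matrix.smul_apply, smul_eq_mul, Matrix.mul_apply,
        Finset.mul_sum, mul_sub]
      have e : ∀ l, pd q (pd l v) x * pd p (pd l v) x = H p l * H l q := fun l => by
        rw [show pd p (pd l v) x = H l p from rfl, show H l p = H p l from congrFun (congrFun hs p) l]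
        exact mul_comm _ _
      simp only [e]
      congr 1
      · show σ' * (Pr i p * Pr j q * H p q) = _
        ring
  -- the eigenframe
  set e := r⁻¹ • posVec x with he
  have hxx : posVec x ⬝ᵥ posVec x = r ^ 2 := by
    rw [hr, EuclideanSpace.norm_sq_eq]
    simp [posVec, dotProduct, pow_two]
  have hee : e ⬝ᵥ e = 1 := by
    rw [he, smul_dotProduct, dotProduct_smul, hxx, smul_eq_mul, smul_eq_mul]
    field_simp
  obtain ⟨O, L, hO, hOe, hconj, hL⟩ := exists_frame (H := r • H) (e := e)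
    (by rw [Matrix.transpose_smul, hs]) (by rw [Matrix.trace_smul, htr, smul_zero]) hee
    (by rw [he, Matrix.smul_mulVec, Matrix.mulVec_smul, hHx, smul_zero, smul_zero])
  have hpow : ∀ n, r ^ (n + 1) * (H ^ (n + 1)).trace = psum L (n + 1) := fun n => by
    rw [← trace_frameHess_pow n, ← hconj, conj_pow hO, trace_conj hO, smul_pow, Matrix.trace_smul,
      smul_eq_mul]
  have hv0 : v x = 0 := by
    rw [eqOn_closure_of_ne hu hsub hv hvu hx.1 hx0]
    refine le_antisymm (not_lt.1 fun h => ?_) (hu.nonneg x)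
    exact hx.2 (by rw [(isOpen_posSet hu).interior_eq]; exact h)
  obtain ⟨a, ha⟩ : ∃ a, L a = r * σ' := by
    by_contra hne
    push Not at hne
    have hz : O.transpose *ᵥ g = 0 := by
      funext i
      have h1 : (r • H) *ᵥ g = (r * σ') • g := by rw [Matrix.smul_mulVec, hHg, smul_smul]
      have h2 := congrFun (conj_mulVec hO (r • H) g) i
      rw [hconj, h1, Matrix.mulVec_smul, frameHess, Matrix.mulVec_diagonal] at h2
      cases i using Fin.cases with
      | zero =>
        have hO0 : O *ᵥ (Fin.cons 1 0 : Fin (n + 1) → ℝ) = e := by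
          rw [← hOe, Matrix.mulVec_mulVec, mul_transpose_self hO, Matrix.one_mulVec]
        have h3 : (O.transpose *ᵥ g) 0 = e ⬝ᵥ g := by
          rw [← dot_rot hO e g, hOe]
          simp [dotProduct, Fin.sum_univ_succ]
        rw [h3, Pi.zero_apply, he, smul_dotProduct, smul_eq_mul, mul_eq_zero]
        right
        exact (point_dot_grad hu hW hsub hv hvu hx.1 hx0).trans hv0
      | succ k =>
        simp at h2
        exact h2.resolve_left (hne k)
    have := dot_rot hO g g
    rw [hz, hgg] at this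
    simp at this
  have hQ : r ^ 2 * (H * H).trace = psum L 2 := by rw [← pow_two H]; exact hpow 1
  have harg : argOf v x = (psum L 2, 0, 1, psum L 3, psum L 4) := by
    rw [argOf, coefArg, ← hr, ← hH, ← hg, hQ, hgg, hv0, zero_div, ← hpow 2, ← hpow 3]
  set τ : ℕ → ℝ := fun m => (M * H ^ m).trace with hτ
  have hτL : ∀ m : ℕ, r ^ (m + 2) * τ m = fluxTrace L a m := fun m => by
    rw [hτ]
    simp only [trace_mul_pow hs hgg hHg htr hMt hK, fluxTrace, ha, ← hpow, mul_pow, ← pow_two H]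
    ring
  have hC : ∀ m : ℕ, g ⬝ᵥ Reduce.contract H (thirdM v x) m = τ m := fun m => by
    simp only [hτ, hM, Finset.sum_mul, Matrix.trace_sum, smul_mul_assoc, Matrix.trace_smul,
      smul_eq_mul, Reduce.contract, dotProduct]
  have hgpow : ∀ (m : ℕ) (w : Fin (n + 1) → ℝ), g ⬝ᵥ (H ^ m *ᵥ w) = σ' ^ m * (g ⬝ᵥ w) := fun m w => by
    rw [Matrix.dotProduct_mulVec, ← Matrix.mulVec_transpose, Matrix.transpose_pow, hs,
      pow_mulVec_eigen hHg, smul_dotProduct, smul_eq_mul]
  have hVg : (∑ k, certV n σ D v k x * pd k v x) =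
      (∑ m, r ^ (-expA n (σ.a m)) * D.A m (argOf v x) * τ (σ.a m + 1)) +
        (∑ j, r ^ (-expB n (σ.j j)) * D.B j (argOf v x) * σ' ^ σ.j j) +
        ∑ i, r ^ (-expX n (σ.p i) (σ.q i)) * D.X i (argOf v x) *
          (σ' ^ (σ.p i + 1) * τ (σ.q i + 1) - σ' ^ (σ.q i + 1) * τ (σ.p i + 1)) := by
    simp only [certV, add_mul, Finset.sum_add_distrib, Finset.sum_mul, mul_assoc, ← hH, ← hg, ← hr]
    refine congrArg₂ (· + ·) (congrArg₂ (· + ·) ?_ ?_) ?_
    · rw [Finset.sum_comm]
      refine Finset.sum_congr rfl fun m _ => ?_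
      rw [← Finset.mul_sum, ← Finset.mul_sum, ← hC]
      exact congrArg (_ * ·) (congrArg (_ * ·) (Finset.sum_congr rfl fun k _ => mul_comm _ _))
    · rw [Finset.sum_comm]
      refine Finset.sum_congr rfl fun j _ => ?_
      rw [← Finset.mul_sum, ← Finset.mul_sum, pow_mulVec_eigen hHg]
      simp only [Pi.smul_apply, smul_eq_mul, mul_assoc, ← Finset.mul_sum]
      rw [show ∑ k, g k * pd k v x = 1 from hgg, mul_one]
    · rw [Finset.sum_comm]
      refine Finset.sum_congr rfl fun i _ => ?_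
      rw [← Finset.mul_sum, ← Finset.mul_sum]
      refine congrArg (_ * ·) (congrArg (_ * ·) ?_)
      rw [← hC (σ.q i + 1), ← hC (σ.p i + 1), ← hgpow, ← hgpow, ← dotProduct_sub]
      exact Finset.sum_congr rfl fun k _ => mul_comm _ _
  have key := h L hL a (ha ▸ mul_nonpos_of_nonneg_of_nonpos hr0.le hσ')
  rw [hVg, certF, ← hr, harg, le_div_iff₀ (by positivity)]
  refine le_trans (le_of_eq ?_) key
  have ez : ∀ (e : ℤ) (k : ℕ), (n : ℤ) = e + k → r ^ (-e) * r ^ n = r ^ k := fun e k he => by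
    rw [← zpow_natCast r n, ← zpow_natCast r k, ← zpow_add₀ hr0.ne']
    congr 1
    omega
  have eΦ := ez ((n : ℤ) - 1) 1 (by ring)
  have eA : ∀ m, r ^ (-expA n (σ.a m)) * D.A m (psum L 2, 0, 1, psum L 3, psum L 4) * τ (σ.a m + 1) * r ^ n =
      D.A m (psum L 2, 0, 1, psum L 3, psum L 4) * fluxTrace L a (σ.a m + 1) := fun m => by
    rw [← hτL]
    linear_combination (D.A m (psum L 2, 0, 1, psum L 3, psum L 4) * τ (σ.a m + 1)) *
      ez (expA n (σ.a m)) (σ.a m + 1 + 2) (by simp [expA]; ring)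
  have eB : ∀ j, r ^ (-expB n (σ.j j)) * D.B j (psum L 2, 0, 1, psum L 3, psum L 4) * σ' ^ σ.j j * r ^ n =
      D.B j (psum L 2, 0, 1, psum L 3, psum L 4) * L a ^ σ.j j := fun j => by
    rw [ha, mul_pow]
    linear_combination (D.B j (psum L 2, 0, 1, psum L 3, psum L 4) * σ' ^ σ.j j) *
      ez (expB n (σ.j j)) (σ.j j) (by simp [expB])
  have eX : ∀ i, r ^ (-expX n (σ.p i) (σ.q i)) * D.X i (psum L 2, 0, 1, psum L 3, psum L 4) *
        (σ' ^ (σ.p i + 1) * τ (σ.q i + 1) - σ' ^ (σ.q i + 1) * τ (σ.p i + 1)) * r ^ n =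
      D.X i (psum L 2, 0, 1, psum L 3, psum L 4) * (L a ^ (σ.p i + 1) * fluxTrace L a (σ.q i + 1) -
        L a ^ (σ.q i + 1) * fluxTrace L a (σ.p i + 1)) := fun i => by
    rw [← hτL, ← hτL, ha, mul_pow, mul_pow]
    linear_combination (D.X i (psum L 2, 0, 1, psum L 3, psum L 4) *
        (σ' ^ (σ.p i + 1) * τ (σ.q i + 1) - σ' ^ (σ.q i + 1) * τ (σ.p i + 1))) *
      ez (expX n (σ.p i) (σ.q i)) (σ.p i + σ.q i + 4) (by simp [expX]; ring)
  simp only [add_mul, Finset.sum_mul, eA, eB, eX]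
  rw [ha]
  linear_combination (D.Φ (psum L 2, 0, 1, psum L 3, psum L 4) * σ') * eΦ

end

end Vale.Agent.P098.ReduceN
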