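import Vale.Agent.P098.ReduceN.Cube

/-!
P098, reduction in every dimension: fields `T : H^m`, `H^j g` and the antisymmetric combinations
`H^p (T : H^q) - H^q (T : H^p)`, the pointwise expression, its invariance and its scaling.
-/

open Matrix

namespace Vale.Agent.P098.ReduceN

open Vale.Agent.P098.Reduce

noncomputable section

/-- The numbers and powers of the fields: `T : H^(a+1)`, `H^j g`, and the antisymmetric field of
the powers `p+1`, `q+1`. -/
structure Fields where
  M : ℕ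
  J : ℕ
  K : ℕ
  a : Fin M → ℕ
  j : Fin J → ℕ
  p : Fin K → ℕ
  q : Fin K → ℕ

/-- One datum for the test function and one for each field. -/
structure Data (σ : Fields) (α : Type) where
  Φ : α
  A : Fin σ.M → α
  B : Fin σ.J → α
  X : Fin σ.K → α

/-- Apply a map to every entry. -/
def Data.map {σ : Fields} {α β : Type} (f : α → β) (D : Data σ α) : Data σ β :=
  ⟨f D.Φ, fun m => f (D.A m), fun j => f (D.B j), fun k => f (D.X k)⟩

variable {n d : ℕ}

/-- The arguments `(Q, s, P, C₃, C₄)` of the coefficients, `C_p = tr (r H)^p`. -/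
abbrev Arg : Type := ℝ × ℝ × ℝ × ℝ × ℝ

/-- A value and the five partial derivatives of a coefficient. -/
abbrev Jet1 : Type := ℝ × Arg

/-- The differential of `r^(p+2) tr H^(p+2)`. -/
def traceDir (x : Fin d → ℝ) (H : Mat d) (T : Fin d → Mat d) (r : ℝ) (p : ℕ) : Fin d → ℝ :=
  (((p : ℝ) + 2) * r ^ p * (H ^ (p + 2)).trace) • x +
    (((p : ℝ) + 2) * r ^ (p + 2)) • contract H T (p + 1)

/-- The differential of a coefficient. -/
def pullN (x g : Fin d → ℝ) (H : Mat d) (T : Fin d → Mat d) (r s : ℝ) (X : Jet1) : Fin d → ℝ :=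
  pull x g H T r s (X.1, X.2.1, X.2.2.1, X.2.2.2.1) + X.2.2.2.2.1 • traceDir x H T r 1 +
    X.2.2.2.2.2 • traceDir x H T r 2

/-- The exponent of the radius in front of `T : H^(a+1)`. -/
def expA (n a : ℕ) : ℤ := (n : ℤ) - 3 - a

/-- The exponent of the radius in front of `H^j g`. -/
def expB (n j : ℕ) : ℤ := (n : ℤ) - j

/-- The exponent of the radius in front of the antisymmetric field. -/
def expX (n p q : ℕ) : ℤ := (n : ℤ) - 4 - p - q

/-- The differential of `r ^ (-e)` times a coefficient. -/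
def weightedZ (x g : Fin d → ℝ) (H : Mat d) (T : Fin d → Mat d) (r s : ℝ) (e : ℤ) (X : Jet1) :
    Fin d → ℝ :=
  (-((e : ℝ) * X.1 * r ^ (-e - 2))) • x + r ^ (-e) • pullN x g H T r s X

/-- The pairing of two third derivative slots through the differential of a power. -/
def gram (H : Mat d) (T : Fin d → Mat d) (q : ℕ) : Mat d :=
  Matrix.of fun k l => (T l * dpow H (T k) q).trace

/-- One half of the divergence of the antisymmetric field, without fourth derivatives. -/
def crossDiv (H : Mat d) (T : Fin d → Mat d) (p q : ℕ) : ℝ :=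
  applyDiv (contract H T q) H T p - (H ^ (p + 1)).trace + (H ^ p * (gram H T q).transpose).trace

/-- The antisymmetric field. -/
def anti (H : Mat d) (T : Fin d → Mat d) (p q : ℕ) : Fin d → ℝ :=
  H ^ p *ᵥ contract H T q - H ^ q *ᵥ contract H T p

/-- The divergence of the antisymmetric field. -/
def antiDiv (H : Mat d) (T : Fin d → Mat d) (p q : ℕ) : ℝ :=
  crossDiv H T p q - crossDiv H T q p

/-- The pointwise expression of a certificate. -/
def jetExpr (n : ℕ) (σ : Fields) (x g : Fin d → ℝ) (H : Mat d) (T : Fin d → Mat d) (r s : ℝ)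
    (D : Data σ Jet1) (y : Fin d → ℝ) : ℝ :=
  y ⬝ᵥ weightedZ x g H T r s ((n : ℤ) - 1) D.Φ - (y ⬝ᵥ y) * (D.Φ.1 * r ^ (-((n : ℤ) - 1))) +
    (∑ m, (weightedZ x g H T r s (expA n (σ.a m)) (D.A m) ⬝ᵥ contract H T (σ.a m + 1) +
      (D.A m).1 * r ^ (-expA n (σ.a m)) * contractDiv H T (σ.a m + 1))) +
    (∑ i, (weightedZ x g H T r s (expB n (σ.j i)) (D.B i) ⬝ᵥ (H ^ σ.j i *ᵥ g) +
      (D.B i).1 * r ^ (-expB n (σ.j i)) * applyDiv g H T (σ.j i))) +
    ∑ k, (weightedZ x g H T r s (expX n (σ.p k) (σ.q k)) (D.X k) ⬝ᵥ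
        anti H T (σ.p k + 1) (σ.q k + 1) +
      (D.X k).1 * r ^ (-expX n (σ.p k) (σ.q k)) * antiDiv H T (σ.p k + 1) (σ.q k + 1))

section Rotation

variable {O : Mat d} (hO : O.transpose * O = 1)

include hO

lemma gram_rot (H : Mat d) (T : Fin d → Mat d) (q : ℕ) :
    gram (conj O H) (rot O T) q = conj O (gram H T q) := by
  ext a b
  simp only [gram, Matrix.of_apply, rot, dpow_rot hO, dpow_smul_sum, conj_mul hO, trace_conj hO,
    Finset.sum_mul, Finset.mul_sum, smul_mul_assoc, mul_smul_comm, Matrix.trace_sum,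
    Matrix.trace_smul, smul_eq_mul]
  simp only [conj, Matrix.mul_apply, Matrix.transpose_apply, Matrix.of_apply, Finset.sum_mul]
  exact Finset.sum_comm.trans
    (Finset.sum_congr rfl fun i _ => Finset.sum_congr rfl fun l _ => by ring)

lemma crossDiv_rot (H : Mat d) (T : Fin d → Mat d) (p q : ℕ) :
    crossDiv (conj O H) (rot O T) p q = crossDiv H T p q := by
  have e : (conj O (gram H T q)).transpose = conj O (gram H T q).transpose := by
    simp [conj, Matrix.transpose_mul, Matrix.mul_assoc]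
  simp only [crossDiv, contract_rot hO, applyDiv_rot hO, gram_rot hO, e, conj_pow hO, conj_mul hO,
    trace_conj hO]

/-- The expression does not depend on the orthonormal frame. -/
theorem jetExpr_rot (σ : Fields) (x g : Fin d → ℝ) (H : Mat d) (T : Fin d → Mat d) (r s : ℝ)
    (D : Data σ Jet1) (y : Fin d → ℝ) :
    jetExpr n σ (O.transpose *ᵥ x) (O.transpose *ᵥ g) (conj O H) (rot O T) r s D
        (O.transpose *ᵥ y) = jetExpr n σ x g H T r s D y := by
  have hw : ∀ e X, weightedZ (O.transpose *ᵥ x) (O.transpose *ᵥ g) (conj O H) (rot O T) r s e X =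
      O.transpose *ᵥ weightedZ x g H T r s e X := fun e X => by
    simp only [weightedZ, pullN, traceDir, pull_rot hO, contract_rot hO, conj_pow hO, trace_conj hO,
      Matrix.mulVec_add, Matrix.mulVec_smul]
  have ha : ∀ p q, anti (conj O H) (rot O T) p q = O.transpose *ᵥ anti H T p q := fun p q => by
    simp only [anti, contract_rot hO, conj_pow hO, conj_mulVec hO, Matrix.mulVec_sub]
  simp only [jetExpr, hw, ha, antiDiv, crossDiv_rot hO, contract_rot hO, contractDiv_rot hO,
    applyDiv_rot hO, conj_pow hO, conj_mulVec hO, dot_rot hO]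

end Rotation

section Scaling

variable {r : ℝ} (hr : r ≠ 0)

include hr

lemma gram_smul (H : Mat d) (T : Fin d → Mat d) (q : ℕ) :
    gram (r • H) (fun k => r ^ 2 • T k) q = r ^ (q + 3) • gram H T q := by
  have h : ∀ k, dpow (r • H) (r ^ 2 • T k) q = (r * r ^ q) • dpow H (T k) q := fun k => by
    have := congrArg (fun M => r⁻¹ • M) (dpow_smul r (r ^ 2) H (T k) q)
    simp only [smul_smul, inv_mul_cancel₀ hr, one_smul] at this
    rw [this]
    congr 1
    field_simp
  ext k l
  simp only [gram, Matrix.of_apply, h, smul_mul_assoc, mul_smul_comm, smul_smul, Matrix.trace_smul,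
    Matrix.smul_apply, smul_eq_mul]
  ring

lemma applyDiv_smul_arg (c : ℝ) (g : Fin d → ℝ) (H : Mat d) (T : Fin d → Mat d) (j : ℕ) :
    applyDiv (c • g) H T j - (H ^ (j + 1)).trace =
      c * (applyDiv g H T j - (H ^ (j + 1)).trace) := by
  have _ := hr
  simp only [applyDiv, add_sub_cancel_right, Matrix.mulVec_smul, Pi.smul_apply, smul_eq_mul,
    Finset.mul_sum]

lemma crossDiv_smul (H : Mat d) (T : Fin d → Mat d) (p q : ℕ) :
    crossDiv (r • H) (fun k => r ^ 2 • T k) p q = r ^ (p + q + 3) * crossDiv H T p q := by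
  have h1 : applyDiv (contract (r • H) (fun k => r ^ 2 • T k) q) (r • H) (fun k => r ^ 2 • T k) p
      - ((r • H) ^ (p + 1)).trace =
      r ^ (p + q + 3) * (applyDiv (contract H T q) H T p - (H ^ (p + 1)).trace) := by
    rw [contract_smul, applyDiv_smul_arg hr, applyDiv_smul hr, smul_pow, Matrix.trace_smul,
      smul_eq_mul]
    ring
  simp only [crossDiv]
  rw [h1, gram_smul hr, Matrix.transpose_smul, smul_pow, smul_mul_assoc, mul_smul_comm, smul_smul,
    Matrix.trace_smul, smul_eq_mul]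
  ring

/-- The expression is homogeneous of degree `-(n+1)`. -/
theorem jetExpr_scale (σ : Fields) (x g : Fin d → ℝ) (H : Mat d) (T : Fin d → Mat d) (s : ℝ)
    (D : Data σ Jet1) (y : Fin d → ℝ) :
    jetExpr n σ (r⁻¹ • x) g (r • H) (fun k => r ^ 2 • T k) 1 s D (r • y) =
      r ^ ((n : ℤ) + 1) * jetExpr n σ x g H T r s D y := by
  have hp0 : ∀ X, pull (r⁻¹ • x) g (r • H) (fun k => r ^ 2 • T k) 1 s X = r • pull x g H T r s X := by
    intro X
    funext k
    simp only [pull, Pi.add_apply, Pi.sub_apply, Pi.smul_apply, smul_eq_mul, smul_mul_assoc,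
      mul_smul_comm, smul_smul, Matrix.trace_smul, Matrix.smul_mulVec, one_pow, div_one]
    field_simp
  have ht : ∀ p, traceDir (r⁻¹ • x) (r • H) (fun k => r ^ 2 • T k) 1 p = r • traceDir x H T r p :=
    fun p => by
      funext k
      simp only [traceDir, contract_smul, smul_pow, Matrix.trace_smul, Pi.add_apply, Pi.smul_apply,
        smul_eq_mul, one_pow, mul_one]
      field_simp
      ring
  have hp : ∀ X : Jet1, pullN (r⁻¹ • x) g (r • H) (fun k => r ^ 2 • T k) 1 s X =
      r • pullN x g H T r s X := fun X => by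
    simp only [pullN, hp0, ht, smul_add, smul_comm r]
  have hw : ∀ e X, weightedZ (r⁻¹ • x) g (r • H) (fun k => r ^ 2 • T k) 1 s e X =
      r ^ (e + 1) • weightedZ x g H T r s e X := fun e X => by
    funext k
    simp only [weightedZ, hp, Pi.add_apply, Pi.smul_apply, smul_eq_mul, _root_.one_zpow, mul_one, one_mul]
    have h1 : r ^ (e + 1) * r ^ (-e - 2) = r⁻¹ := by
      rw [← zpow_add₀ hr, show e + 1 + (-e - 2) = -1 by ring, _root_.zpow_neg_one]
    have h2 : r ^ (e + 1) * r ^ (-e) = r := by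
      rw [← zpow_add₀ hr, show e + 1 + -e = 1 by ring, zpow_one]
    linear_combination ((e : ℝ) * X.1 * x k) * h1 - (pullN x g H T r s X k) * h2
  have key : ∀ (e : ℤ) (k : ℕ), e + k + 1 = (n : ℤ) + 1 →
      ∀ a b : ℝ, r ^ (e + 1) * (r ^ k * a) = r ^ ((n : ℤ) + 1) * a ∧
        b * (r ^ (k + 1) * a) = r ^ ((n : ℤ) + 1) * (b * r ^ (-e) * a) := by
    intro e k h a b
    have g1 : r ^ (e + 1) * r ^ k = r ^ ((n : ℤ) + 1) := by
      rw [← zpow_natCast, ← zpow_add₀ hr]; congr 1; omega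
    have g2 : r ^ ((n : ℤ) + 1) * r ^ (-e) = r ^ (k + 1) := by
      rw [← zpow_natCast, ← zpow_add₀ hr]; congr 1; push_cast; omega
    exact ⟨by rw [← mul_assoc, g1], by linear_combination (-(b * a)) * g2⟩
  have hΦ : r • y ⬝ᵥ r ^ ((n : ℤ) - 1 + 1) • weightedZ x g H T r s ((n : ℤ) - 1) D.Φ -
      (r • y ⬝ᵥ r • y) * (D.Φ.1 * 1) = r ^ ((n : ℤ) + 1) *
        (y ⬝ᵥ weightedZ x g H T r s ((n : ℤ) - 1) D.Φ -
          (y ⬝ᵥ y) * (D.Φ.1 * r ^ (-((n : ℤ) - 1)))) := by
    have g1 : r * r ^ ((n : ℤ) - 1 + 1) = r ^ ((n : ℤ) + 1) := by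
      rw [← zpow_one_add₀ hr]
      congr 1; omega
    have g2 : r ^ ((n : ℤ) + 1) * r ^ (-((n : ℤ) - 1)) = r * r := by
      rw [← zpow_add₀ hr, show (n : ℤ) + 1 + -((n : ℤ) - 1) = 2 by ring, _root_.zpow_two]
    simp only [smul_dotProduct, dotProduct_smul, smul_eq_mul]
    linear_combination (y ⬝ᵥ weightedZ x g H T r s ((n : ℤ) - 1) D.Φ) * g1 +
      (D.Φ.1 * (y ⬝ᵥ y)) * g2
  simp only [jetExpr, hw, _root_.one_zpow]
  rw [hΦ]
  simp only [mul_add, Finset.mul_sum]
  refine congrArg₂ (· + ·) (congrArg₂ (· + ·) (congrArg₂ (· + ·) rfl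
    (Finset.sum_congr rfl fun m _ => ?_)) (Finset.sum_congr rfl fun i _ => ?_))
    (Finset.sum_congr rfl fun k _ => ?_)
  · rw [contract_smul, contractDiv_smul hr, smul_dotProduct, dotProduct_smul, smul_eq_mul,
      smul_eq_mul, mul_one]
    obtain ⟨k1, -⟩ := key (expA n (σ.a m)) (σ.a m + 3) (by simp [expA]; ring)
      (weightedZ x g H T r s (expA n (σ.a m)) (D.A m) ⬝ᵥ contract H T (σ.a m + 1)) 0
    obtain ⟨-, k2⟩ := key (expA n (σ.a m)) (σ.a m + 3) (by simp [expA]; ring)
      (contractDiv H T (σ.a m + 1)) (D.A m).1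
    rw [← k1, ← k2]
  · rw [applyDiv_smul hr, smul_pow, Matrix.smul_mulVec, smul_dotProduct, dotProduct_smul,
      smul_eq_mul, smul_eq_mul, mul_one]
    obtain ⟨k1, -⟩ := key (expB n (σ.j i)) (σ.j i) (by simp [expB])
      (weightedZ x g H T r s (expB n (σ.j i)) (D.B i) ⬝ᵥ (H ^ σ.j i *ᵥ g)) 0
    obtain ⟨-, k2⟩ := key (expB n (σ.j i)) (σ.j i) (by simp [expB])
      (applyDiv g H T (σ.j i)) (D.B i).1
    rw [← k1, ← k2]
  · have ea : anti (r • H) (fun k => r ^ 2 • T k) (σ.p k + 1) (σ.q k + 1) =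
        r ^ (σ.p k + σ.q k + 4) • anti H T (σ.p k + 1) (σ.q k + 1) := by
      simp only [anti, contract_smul, smul_pow, Matrix.smul_mulVec, Matrix.mulVec_smul, smul_smul,
        smul_sub]
      congr 2 <;> ring
    rw [ea, antiDiv, crossDiv_smul hr, crossDiv_smul hr, smul_dotProduct, dotProduct_smul,
      smul_eq_mul, smul_eq_mul, mul_one]
    obtain ⟨k1, -⟩ := key (expX n (σ.p k) (σ.q k)) (σ.p k + σ.q k + 4) (by simp [expX]; ring)
      (weightedZ x g H T r s (expX n (σ.p k) (σ.q k)) (D.X k) ⬝ᵥ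
        anti H T (σ.p k + 1) (σ.q k + 1)) 0
    obtain ⟨-, k2⟩ := key (expX n (σ.p k) (σ.q k)) (σ.p k + σ.q k + 4) (by simp [expX]; ring)
      (antiDiv H T (σ.p k + 1) (σ.q k + 1)) (D.X k).1
    rw [← k1, ← k2, antiDiv]
    ring_nf

end Scaling

end

end Vale.Agent.P098.ReduceN
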