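import Vale.Agent.P098.ReduceN.Edge
import Vale.Agent.P098.Smoothing


/-!
P098, reduction in every dimension: from scalar inequalities for a family of coefficients in
`(Q, s, P, C₃, C₄)` to flatness of stable cones with smooth cross-section.
-/

open Filter Matrix
open scoped Topology ContDiff RealInnerProductSpace

namespace Vale.Agent.P098.ReduceN

open Vale.Agent.P098.Reduce (Mat hessM thirdM posVec coefArg diff_hess)

noncomputable section

variable {n : ℕ} {σ : Fields} {u v : Euc (n + 1) → ℝ} {W : Set (Euc (n + 1))} (hu : IsSmoothCone u)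
  (hW : IsOpen W) (hsub : closure (posSet u) \ {0} ⊆ W) (hv : ContDiffOn ℝ ∞ v W)
  (hvu : Set.EqOn v u (posSet u))

lemma contDiffAt_hess_pow {x : Euc (n + 1)} (h : ContDiffAt ℝ 4 v x) : ∀ (j : ℕ) (a b : Fin (n + 1)),
    ContDiffAt ℝ 2 (fun y => (hessM v y ^ j) a b) x
  | 0, a, b => by simp only [pow_zero]; exact contDiffAt_const
  | j + 1, a, b => by
    simp only [pow_succ, Matrix.mul_apply]
    exact ContDiffAt.sum fun l _ => (contDiffAt_hess_pow h j a l).mul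
      (contDiffAt_pd (contDiffAt_pd h (m := 3) (by norm_num) l) (by norm_num) b)

lemma contDiffAt_invNorm {x : Euc (n + 1)} (hx : x ≠ 0) {k : WithTop ℕ∞} :
    ContDiffAt ℝ k (fun y : Euc (n + 1) => ‖y‖⁻¹) x :=
  (contDiffAt_norm ℝ hx).inv (norm_ne_zero_iff.2 hx)

lemma contDiffAt_coefArg {x : Euc (n + 1)} (hx : x ≠ 0) (h : ContDiffAt ℝ 4 v x) :
    ContDiffAt ℝ 2 (coefArg v) x := by
  refine ContDiffAt.prodMk ?_ (ContDiffAt.prodMk ?_ ?_)
  · refine ((contDiff_norm_sq ℝ).contDiffAt).mul (ContDiffAt.sum fun i _ => ?_)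
    have := contDiffAt_hess_pow h 2 i i
    simpa [pow_two] using this
  · simpa [div_eq_mul_inv] using (h.of_le (by norm_num)).mul (contDiffAt_invNorm hx (k := 2))
  · exact ContDiffAt.sum fun i _ => ((contDiffAt_pd h (by norm_num) i).mul
      (contDiffAt_pd h (by norm_num) i))

lemma contDiffAt_argOf {x : Euc (n + 1)} (hx : x ≠ 0) (h : ContDiffAt ℝ 4 v x) :
    ContDiffAt ℝ 2 (argOf v) x := by
  have hc := contDiffAt_coefArg hx h
  have hp : ∀ m : ℕ, ContDiffAt ℝ 2 (fun y => ‖y‖ ^ m * (hessM v y ^ m).trace) x := fun m =>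
    ((contDiffAt_norm ℝ hx).pow m).mul (ContDiffAt.sum fun i _ => contDiffAt_hess_pow h m i i)
  exact hc.fst.prodMk (hc.snd.fst.prodMk (hc.snd.snd.prodMk ((hp 3).prodMk (hp 4))))

lemma contDiffAt_norm_zpow {x : Euc (n + 1)} (hx : x ≠ 0) (e : ℤ) {k : WithTop ℕ∞} :
    ContDiffAt ℝ k (fun y : Euc (n + 1) => ‖y‖ ^ e) x := by
  obtain ⟨m, rfl | rfl⟩ := e.eq_nat_or_neg
  · simp only [zpow_natCast]
    exact (contDiffAt_norm ℝ hx).pow m
  · simp only [_root_.zpow_neg, zpow_natCast]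
    exact ((contDiffAt_norm ℝ hx).pow m).inv (pow_ne_zero _ (norm_ne_zero_iff.2 hx))

lemma contDiffAt_certF {Φ : Arg → ℝ} (hΦ : ContDiff ℝ 2 Φ) {x : Euc (n + 1)} (hx : x ≠ 0)
    (h : ContDiffAt ℝ 4 v x) : ContDiffAt ℝ 2 (certF n Φ v) x :=
  (contDiffAt_norm_zpow hx _).mul (hΦ.contDiffAt.comp x (contDiffAt_argOf hx h))

lemma contDiffAt_certV {D : Data σ (Arg → ℝ)} (hA : ∀ m, ContDiff ℝ 1 (D.A m))
    (hB : ∀ j, ContDiff ℝ 1 (D.B j)) (hX : ∀ i, ContDiff ℝ 1 (D.X i)) {x : Euc (n + 1)} (hx : x ≠ 0)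
    (h : ContDiffAt ℝ 4 v x) (k : Fin (n + 1)) : ContDiffAt ℝ 1 (certV n σ D v k) x := by
  have hz : ContDiffAt ℝ 1 (argOf v) x := (contDiffAt_argOf hx h).of_le (by norm_num)
  have hC : ∀ m l, ContDiffAt ℝ 1
      (fun y => Reduce.contract (hessM v y) (thirdM v y) m l) x := fun m l => by
    simp only [Reduce.contract, Matrix.trace, Matrix.diag, Matrix.mul_apply]
    exact ContDiffAt.sum fun i _ => ContDiffAt.sum fun p _ =>
      (contDiffAt_pd (contDiffAt_pd (contDiffAt_pd h (m := 3) (by norm_num) i) (m := 2) (by norm_num) p)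
        (by norm_num) l).mul ((contDiffAt_hess_pow h _ p i).of_le (by norm_num))
  refine ((ContDiffAt.sum fun m _ => ?_).add (ContDiffAt.sum fun j _ => ?_)).add
    (ContDiffAt.sum fun i _ => ?_)
  · exact ((contDiffAt_norm_zpow hx _).mul ((hA m).contDiffAt.comp x hz)).mul (hC _ k)
  · refine ((contDiffAt_norm_zpow hx _).mul ((hB j).contDiffAt.comp x hz)).mul ?_
    simp only [Matrix.mulVec, dotProduct]
    exact ContDiffAt.sum fun i _ => ((contDiffAt_hess_pow h _ k i).of_le (by norm_num)).mul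
      (contDiffAt_pd h (by norm_num) i)
  · refine ((contDiffAt_norm_zpow hx _).mul ((hX i).contDiffAt.comp x hz)).mul ?_
    simp only [anti, Pi.sub_apply, Matrix.mulVec, dotProduct]
    exact (ContDiffAt.sum fun l _ => ((contDiffAt_hess_pow h _ k l).of_le (by norm_num)).mul (hC _ l)).sub
      (ContDiffAt.sum fun l _ => ((contDiffAt_hess_pow h _ k l).of_le (by norm_num)).mul (hC _ l))

include hu hW hsub hv hvu in
lemma jet_smul {x : Euc (n + 1)} (hx : x ∈ posSet u) {r : ℝ} (hr : 0 < r) :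
    gradVec v (r • x) = gradVec v x ∧ hessM v (r • x) = r⁻¹ • hessM v x ∧
      (∀ k, thirdM v (r • x) k = (r ^ 2)⁻¹ • thirdM v x k) ∧ coefArg v (r • x) = coefArg v x := by
  have hg : gradVec v (r • x) = gradVec v x := by
    funext i
    rw [gradVec, gradVec, pd, pd, fderiv_smul_eq hu hsub hv hvu hx hr]
  have hH : hessM v (r • x) = r⁻¹ • hessM v x := by
    ext i j; exact hessian_smul hu hW hsub hv hvu hx hr i j
  have hT : ∀ k, thirdM v (r • x) k = (r ^ 2)⁻¹ • thirdM v x k := fun k => by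
    ext i j
    have hd : ∀ y ∈ posSet u, DifferentiableAt ℝ (pd j (pd i v)) y := fun y hy =>
      diff_hess ((hv.contDiffAt (hW.mem_nhds (posSet_subset hu hsub hy))).of_le
        (WithTop.coe_le_coe.2 le_top)) i j
    have h := pd_scale (h := pd j (pd i v)) (h' := pd j (pd i v)) (c := r⁻¹) (r := r) (by
      filter_upwards [(isOpen_posSet hu).mem_nhds hx] with y hy
      exact hessian_smul hu hW hsub hv hvu hy hr i j)
      (hd _ (smul_mem_posSet hu hx hr)) (hd x hx) k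
    show third v i j k (r • x) = (r ^ 2)⁻¹ * third v i j k x
    unfold third
    field_simp at h ⊢
    linarith
  refine ⟨hg, hH, hT, ?_⟩
  simp only [coefArg, hg, hH, norm_smul, Real.norm_eq_abs, abs_of_pos hr, smul_mul_assoc,
    mul_smul_comm, smul_smul, Matrix.trace_smul, smul_eq_mul]
  rw [hvu (smul_mem_posSet hu hx hr), hu.homogeneous r hr x, hvu hx]
  refine Prod.ext ?_ (Prod.ext ?_ rfl)
  · field_simp
  · exact mul_div_mul_left _ _ hr.ne'

include hu hW hsub hv hvu in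
lemma argOf_smul {x : Euc (n + 1)} (hx : x ∈ posSet u) {r : ℝ} (hr : 0 < r) :
    argOf v (r • x) = argOf v x := by
  obtain ⟨-, hH, -, hz⟩ := jet_smul hu hW hsub hv hvu hx hr
  simp only [argOf, hz, hH, norm_smul, Real.norm_eq_abs, abs_of_pos hr, smul_pow, Matrix.trace_smul,
    smul_eq_mul]
  refine Prod.ext rfl (Prod.ext rfl (Prod.ext rfl (Prod.ext ?_ ?_))) <;>
  · show _ = _
    field_simp

include hu hW hsub hv hvu in
lemma homOn_cert (D : Data σ (Arg → ℝ)) :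
    HomOn u (2 - ((n + 1 : ℕ) : ℝ)) (certF n D.Φ v) ∧
      ∀ k, HomOn u (1 - ((n + 1 : ℕ) : ℝ)) (certV n σ D v k) := by
  refine ⟨fun x hx r hr => ?_, fun k x hx r hr => ?_⟩
  · rw [certF, certF, argOf_smul hu hW hsub hv hvu hx hr, norm_smul, Real.norm_eq_abs, abs_of_pos hr,
      show (2 : ℝ) - ((n + 1 : ℕ) : ℝ) = ((-((n : ℤ) - 1) : ℤ) : ℝ) by push_cast; ring,
      Real.rpow_intCast, mul_zpow]
    ring
  · obtain ⟨hg, hH, hT, -⟩ := jet_smul hu hW hsub hv hvu hx hr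
    have hc : ∀ (m : ℕ) l, Reduce.contract (hessM v (r • x)) (thirdM v (r • x)) m l =
        (r⁻¹) ^ (m + 2) * Reduce.contract (hessM v x) (thirdM v x) m l := fun m l => by
      simp only [Reduce.contract, hH, hT, smul_pow, smul_mul_assoc, mul_smul_comm, smul_smul,
        Matrix.trace_smul, smul_eq_mul]
      rw [inv_pow, inv_pow, pow_add]
      ring
    have hb : ∀ j : ℕ, (hessM v (r • x) ^ j *ᵥ gradVec v (r • x)) k =
        r⁻¹ ^ j * (hessM v x ^ j *ᵥ gradVec v x) k := fun j => by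
      rw [hg, hH, smul_pow, Matrix.smul_mulVec, Pi.smul_apply, smul_eq_mul]
    have ha : ∀ p q : ℕ, anti (hessM v (r • x)) (thirdM v (r • x)) p q k =
        r⁻¹ ^ (p + q + 2) * anti (hessM v x) (thirdM v x) p q k := fun p q => by
      have hcv : ∀ m : ℕ, Reduce.contract (hessM v (r • x)) (thirdM v (r • x)) m =
          (r⁻¹) ^ (m + 2) • Reduce.contract (hessM v x) (thirdM v x) m := fun m => funext fun l => hc m l
      rw [anti, hcv, hcv]
      simp only [anti, hH, smul_pow, Matrix.smul_mulVec, Matrix.mulVec_smul, smul_smul,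
        Pi.sub_apply, Pi.smul_apply, smul_eq_mul, mul_sub]
      ring
    have key : ∀ (e : ℤ) (j : ℕ), (n : ℤ) = e + j → r ^ (-e) * r⁻¹ ^ j = r ^ (-(n : ℤ)) :=
      fun e j he => by
        rw [← zpow_natCast r⁻¹ j, _root_.inv_zpow, ← _root_.zpow_neg, ← zpow_add₀ hr.ne']
        congr 1
        omega
    rw [show (1 : ℝ) - ((n + 1 : ℕ) : ℝ) = ((-(n : ℤ) : ℤ) : ℝ) by push_cast; ring, Real.rpow_intCast]
    simp only [certV, argOf_smul hu hW hsub hv hvu hx hr, hc, hb, ha, norm_smul, Real.norm_eq_abs,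
      abs_of_pos hr, mul_zpow, mul_add, Finset.mul_sum]
    refine congrArg₂ (· + ·) (congrArg₂ (· + ·) (Finset.sum_congr rfl fun m _ => ?_)
      (Finset.sum_congr rfl fun j _ => ?_)) (Finset.sum_congr rfl fun i _ => ?_)
    · linear_combination (‖x‖ ^ (-expA n (σ.a m)) * D.A m (argOf v x) *
        Reduce.contract (hessM v x) (thirdM v x) (σ.a m + 1) k) *
          key (expA n (σ.a m)) (σ.a m + 1 + 2) (by simp [expA]; ring)
    · linear_combination (‖x‖ ^ (-expB n (σ.j j)) * D.B j (argOf v x) *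
        (hessM v x ^ σ.j j *ᵥ gradVec v x) k) * key (expB n (σ.j j)) (σ.j j) (by simp [expB])
    · linear_combination (‖x‖ ^ (-expX n (σ.p i) (σ.q i)) * D.X i (argOf v x) *
        anti (hessM v x) (thirdM v x) (σ.p i + 1) (σ.q i + 1) k) *
          key (expX n (σ.p i) (σ.q i)) (σ.p i + 1 + (σ.q i + 1) + 2) (by simp [expX]; ring)

lemma dot_self_nonneg' (g : Fin (n + 1) → ℝ) : 0 ≤ g ⬝ᵥ g :=
  Finset.sum_nonneg fun i _ => mul_self_nonneg (g i)

/-- Stable cones in dimension `n + 1` are flat, given families of coefficients satisfying the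
scalar inequalities with bounds tending to a strictly negative one. -/
theorem flat_of_ineq {n : ℕ} (hn : 0 < n) {σ : Fields} {u : Euc (n + 1) → ℝ} (hu : IsSmoothCone u)
    (hmin : IsStable u) {D : ℝ → Data σ (Arg → ℝ)} {β : ℝ → Arg → ℝ} {δ : ℝ → ℝ} {β₀ : Arg → ℝ}
    (hδ : Tendsto δ (𝓝[>] 0) (𝓝 0))
    (hC : ∀ᶠ ε : ℝ in 𝓝[>] 0, ContDiff ℝ 2 (D ε).Φ ∧ (∀ m, ContDiff ℝ 1 ((D ε).A m)) ∧
      (∀ j, ContDiff ℝ 1 ((D ε).B j)) ∧ (∀ i, ContDiff ℝ 1 ((D ε).X i)) ∧
      (∀ L : Fin n → ℝ, ∑ i, L i = 0 → ∀ s P : ℝ, s ∈ Set.Icc (0 : ℝ) 1 → P ∈ Set.Icc (0 : ℝ) 1 →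
        0 ≤ (D ε).Φ (psum L 2, s, P, psum L 3, psum L 4)) ∧
      InteriorIneq n σ (D ε) (β ε) ∧ BoundaryIneq n σ (D ε) (δ ε))
    (hbound : ∀ R : ℝ, ∃ C : ℝ, ∀ᶠ ε : ℝ in 𝓝[>] 0, ∀ L : Fin n → ℝ, ∑ i, L i = 0 → psum L 2 ≤ R →
      ∀ s P : ℝ, s ∈ Set.Icc (0 : ℝ) 1 → P ∈ Set.Icc (0 : ℝ) 1 →
        β ε (psum L 2, s, P, psum L 3, psum L 4) ≤ C)
    (hβ₀ : Continuous β₀)
    (hβ0 : ∀ L : Fin n → ℝ, ∑ i, L i = 0 → ∀ s P : ℝ, s ∈ Set.Icc (0 : ℝ) 1 → P ∈ Set.Icc (0 : ℝ) 1 →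
      β₀ (psum L 2, s, P, psum L 3, psum L 4) ≤ 0)
    (hdet : ∀ L : Fin n → ℝ, ∑ i, L i = 0 → ∀ s P : ℝ, s ∈ Set.Icc (0 : ℝ) 1 → P ∈ Set.Icc (0 : ℝ) 1 →
      β₀ (psum L 2, s, P, psum L 3, psum L 4) = 0 → psum L 2 = 0)
    (hlim : ∀ L : Fin n → ℝ, ∑ i, L i = 0 → ∀ s P : ℝ, s ∈ Set.Icc (0 : ℝ) 1 → P ∈ Set.Icc (0 : ℝ) 1 →
      ∀ c > 0, ∀ᶠ ε : ℝ in 𝓝[>] 0, β ε (psum L 2, s, P, psum L 3, psum L 4) ≤
        β₀ (psum L 2, s, P, psum L 3, psum L 4) + c) :
    (∀ x, u x = 0) ∨ ∃ e : Euc (n + 1), ‖e‖ = 1 ∧ ∀ x, u x = max ⟪e, x⟫ 0 := by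
  obtain ⟨W, v, hW, hsub, hv, hvu, hbd⟩ := hu.smooth
  set W' := W \ ({0} : Set (Euc (n + 1))) with hW'
  have hWo : IsOpen W' := hW.sdiff isClosed_singleton
  have hsub' : closure (posSet u) \ {0} ⊆ W' := fun x hx => ⟨hsub hx, hx.2⟩
  have hv' : ContDiffOn ℝ ∞ v W' := hv.mono Set.sdiff_subset
  have h4 : ∀ x ∈ W', ContDiffAt ℝ 4 v x := fun x hx =>
    (hv'.contDiffAt (hWo.mem_nhds hx)).of_le (WithTop.coe_le_coe.2 le_top)
  have hdom : ∀ x ∈ posSet u, ∃ L : Fin n → ℝ, ∑ i, L i = 0 ∧ ∃ s P : ℝ, s ∈ Set.Icc (0 : ℝ) 1 ∧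
      P ∈ Set.Icc (0 : ℝ) 1 ∧ argOf v x = (psum L 2, s, P, psum L 3, psum L 4) := by
    intro x hx
    have hx0 := ne_zero_of_mem_posSet hu hx
    obtain ⟨hs, htr, hHx, -⟩ := jet_props hu hWo hsub' hv' hvu (subset_closure hx) hx0
    have hn' : 0 < ‖x‖ := norm_pos_iff.2 hx0
    have hee : (‖x‖⁻¹ • posVec x) ⬝ᵥ (‖x‖⁻¹ • posVec x) = 1 := by
      have hxx : posVec x ⬝ᵥ posVec x = ‖x‖ ^ 2 := by
        rw [EuclideanSpace.norm_sq_eq]
        simp [posVec, dotProduct, pow_two]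
      rw [smul_dotProduct, dotProduct_smul, hxx, smul_eq_mul, smul_eq_mul]
      field_simp
    obtain ⟨O, L, hO, -, hconj, hL⟩ := exists_frame (H := ‖x‖ • hessM v x) (e := ‖x‖⁻¹ • posVec x)
      (by rw [Matrix.transpose_smul, hs]) (by rw [Matrix.trace_smul, htr, smul_zero]) hee
      (by rw [Matrix.smul_mulVec, Matrix.mulVec_smul, hHx, smul_zero, smul_zero])
    have hpow : ∀ m, ‖x‖ ^ (m + 1) * (hessM v x ^ (m + 1)).trace = psum L (m + 1) := fun m => by
      rw [← trace_frameHess_pow m, ← hconj, Reduce.conj_pow hO, Reduce.trace_conj hO, smul_pow,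
        Matrix.trace_smul, smul_eq_mul]
    refine ⟨L, hL, v x / ‖x‖, gradVec v x ⬝ᵥ gradVec v x, ⟨?_, ?_⟩,
      ⟨dot_self_nonneg' (gradVec v x), gradSq_le_one hu hWo hsub' hv' hvu hbd (by omega) hx⟩, ?_⟩
    · rw [hvu hx]; exact div_nonneg (hu.nonneg x) hn'.le
    · rw [div_le_one hn', hvu hx, ← fderiv_self hu hsub' hv' hvu hx]
      have hg := gradSq_le_one hu hWo hsub' hv' hvu hbd (by omega : 2 ≤ n + 1) hx
      have hnorm : ‖fderiv ℝ v x‖ ≤ 1 := by
        rw [← norm_fderiv_sq] at hg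
        nlinarith [norm_nonneg (fderiv ℝ v x)]
      exact (le_abs_self _).trans ((Real.norm_eq_abs _ ▸ (fderiv ℝ v x).le_opNorm x).trans
        (mul_le_of_le_one_left hn'.le hnorm))
    · rw [argOf, coefArg, ← hpow 1, ← hpow 2, ← hpow 3, pow_two (hessM v x)]
  have hQc : ContinuousOn (argOf v) W' := fun x hx =>
    (contDiffAt_argOf hx.2 (h4 x hx)).continuousAt.continuousWithinAt
  obtain ⟨R, hR⟩ : ∃ R, ∀ x ∈ posSet u, 1 ≤ ‖x‖ → ‖x‖ < 2 → (argOf v x).1 ≤ R := by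
    set K := closure (posSet u) ∩ (Metric.closedBall (0 : Euc (n + 1)) 2 \ Metric.ball 0 1)
    have hK : IsCompact K :=
      ((isCompact_closedBall _ _).diff Metric.isOpen_ball).inter_left isClosed_closure
    have hKW : K ⊆ W' := fun y hy => hsub' ⟨hy.1, fun h => hy.2.2 (by simp [Set.mem_singleton_iff.1 h])⟩
    obtain ⟨C, hC⟩ := hK.exists_bound_of_continuousOn ((continuous_fst.comp_continuousOn hQc).mono hKW)
    exact ⟨C, fun x hx h1 h2 => ((le_abs_self _).trans_eq (Real.norm_eq_abs _).symm).trans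
      (hC x ⟨subset_closure hx, by simp [h2.le], by simp [h1]⟩)⟩
  obtain ⟨C, hCb⟩ := hbound R
  refine flat_of_certificate_family (F := fun ε => certF n (D ε).Φ v)
    (V := fun ε => certV n σ (D ε) v) (q := fun x => β₀ (argOf v x) / ‖x‖ ^ (n + 1))
    hu hWo hsub' hv' hvu (by omega) hmin hbd hδ ?_ ?_ ?_ ⟨max C 0, ?_⟩ ?_ ?_ ?_ ?_
  · filter_upwards [hC] with ε hε
    refine ⟨fun x hx => (contDiffAt_certF hε.1 hx.2 (h4 x hx)).contDiffWithinAt, fun x hx => ?_,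
      (homOn_cert hu hWo hsub' hv' hvu (D ε)).1⟩
    obtain ⟨L, hL, s, P, hs, hP, he⟩ := hdom x hx
    exact mul_nonneg (zpow_nonneg (norm_nonneg _) _) (he ▸ hε.2.2.2.2.1 L hL s P hs hP)
  · filter_upwards [hC] with ε hε k
    exact ⟨fun x hx => (contDiffAt_certV hε.2.1 hε.2.2.1 hε.2.2.2.1 hx.2 (h4 x hx) k).contDiffWithinAt,
      (homOn_cert hu hWo hsub' hv' hvu (D ε)).2 k⟩
  · filter_upwards [hC] with ε hε x hx hx0
    refine (flux_le hu hWo hsub' hv' hvu hbd hn hε.2.2.2.2.2.2 hx hx0).trans_eq ?_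
    rw [show (1 : ℝ) - ((n + 1 : ℕ) : ℝ) = -((n : ℕ) : ℝ) by push_cast; ring,
      Real.rpow_neg (norm_nonneg _), Real.rpow_natCast, div_eq_mul_inv]
  · filter_upwards [hC, hCb] with ε hε hb x hx h1 h2 y
    refine (cert_le hu hWo hsub' hv' hvu hbd hn (hε.1.differentiable (by norm_num))
      (fun m => (hε.2.1 m).differentiable (by norm_num))
      (fun j => (hε.2.2.1 j).differentiable (by norm_num))
      (fun i => (hε.2.2.2.1 i).differentiable (by norm_num)) hε.2.2.2.2.2.1 hx y).trans ?_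
    have h5 : 1 ≤ ‖x‖ ^ (n + 1) := one_le_pow₀ h1
    obtain ⟨L, hL, s, P, hs, hP, he⟩ := hdom x hx
    have hRx := hR x hx h1 h2
    rw [he] at hRx ⊢
    have hβ := (hb L hL hRx s P hs hP).trans (le_max_left C 0)
    rw [div_le_iff₀ (by linarith)]
    exact hβ.trans (le_mul_of_one_le_right (le_max_right _ _) h5)
  · refine ContinuousOn.div (hβ₀.comp_continuousOn hQc) (continuous_norm.pow (n + 1)).continuousOn
      fun x hx => pow_ne_zero _ (norm_ne_zero_iff.2 hx.2)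
  · intro x hx
    obtain ⟨L, hL, s, P, hs, hP, he⟩ := hdom x hx
    exact div_nonpos_of_nonpos_of_nonneg (he ▸ hβ0 L hL s P hs hP) (by positivity)
  · intro x hx h1 h2 c hc
    obtain ⟨L, hL, s, P, hs, hP, he⟩ := hdom x hx
    filter_upwards [hC, hlim L hL s P hs hP c hc] with ε hε hl y
    refine (cert_le hu hWo hsub' hv' hvu hbd hn (hε.1.differentiable (by norm_num))
      (fun m => (hε.2.1 m).differentiable (by norm_num))
      (fun j => (hε.2.2.1 j).differentiable (by norm_num))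
      (fun i => (hε.2.2.2.1 i).differentiable (by norm_num)) hε.2.2.2.2.2.1 hx y).trans ?_
    have h5 : 1 ≤ ‖x‖ ^ (n + 1) := one_le_pow₀ h1
    rw [he, div_add' _ _ _ (by positivity), div_le_div_iff_of_pos_right (by positivity)]
    exact hl.trans (by linarith [le_mul_of_one_le_right hc.le h5])
  · intro x hx hq i j
    have hn' : 0 < ‖x‖ := norm_pos_iff.2 (ne_zero_of_mem_posSet hu hx)
    obtain ⟨L, hL, s, P, hs', hP, he⟩ := hdom x hx
    have h0' : β₀ (argOf v x) = 0 := (div_eq_zero_iff.1 hq).resolve_right (by positivity)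
    have hQ0 : (argOf v x).1 = 0 := by
      rw [he] at h0' ⊢
      exact hdet L hL s P hs' hP h0'
    obtain ⟨hs, -⟩ := jet_props hu hWo hsub' hv' hvu (subset_closure hx) (ne_zero_of_mem_posSet hu hx)
    have hz : (hessM v x * hessM v x).trace = 0 := by
      rw [argOf, coefArg] at hQ0
      exact (mul_eq_zero.1 hQ0).resolve_left (by positivity)
    have e : (hessM v x * hessM v x).trace = ∑ a, ∑ b, hessM v x a b * hessM v x a b :=
      Finset.sum_congr rfl fun a _ => (Matrix.mul_apply).trans (Finset.sum_congr rfl fun b _ => by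
        rw [show hessM v x b a = hessM v x a b from congrFun (congrFun hs a) b])
    rw [e] at hz
    have h1 := (Finset.sum_eq_zero_iff_of_nonneg fun a _ =>
      Finset.sum_nonneg fun b _ => mul_self_nonneg (hessM v x a b)).1 hz i (Finset.mem_univ i)
    exact mul_self_eq_zero.1 ((Finset.sum_eq_zero_iff_of_nonneg fun b _ =>
      mul_self_nonneg (hessM v x i b)).1 h1 j (Finset.mem_univ j))

end

end Vale.Agent.P098.ReduceN
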